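import Vale.Agent.P049.GDefs
import Vale.Agent.P338.PTX

/-! P049: the algorithm on lists (owner helper11). -/

namespace Vale.Agent.P049

open Vale.Agent.Lib.H23

instance : Enc ℚ := ⟨fun x => Enc.enc (x.num, x.den)⟩

abbrev LM : Type := List (List ℚ)

def gt (A : LM) (i j : ℕ) : ℚ := (A.getD i []).getD j 0
def tab (r : List ℕ) (f : ℕ → ℕ → ℚ) : LM := r.map fun i => r.map fun j => f i j
def lsum (r : List ℕ) (f : ℕ → ℚ) : ℚ := (r.map f).sum
def lmul (r : List ℕ) (A B : LM) : LM := tab r fun i j => lsum r fun k => gt A i k * gt B k j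
def ltr (r : List ℕ) (A : LM) : ℚ := lsum r fun i => gt A i i

def lrho (s : ℚ) (B : LM) (a b : ℕ) : ℚ := (s - gt B a b) ^ 2 - gt B a a * gt B b b

def lstep (r : List ℕ) (s : ℚ) (B : LM) (a b : ℕ) : LM := tab r fun c e =>
  if c = a ∨ c = b ∨ e = a ∨ e = b then 0 else
    gt B c e + (gt B b b * gt B c a * gt B e a + gt B a a * gt B c b * gt B e b
      + (s - gt B a b) * (gt B c a * gt B e b + gt B c b * gt B e a)) / lrho s B a b

def lB0 (d : ℕ) (r : List ℕ) (s γ m : ℚ) : LM := tab r fun c e =>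
  (if c / d = e / d then γ else 0) - (if c = e then m else 0) + (s + m - γ * d) / (r.length : ℚ)

/-- the potential computed on lists; it equals `pot` -/
def lside (q : ℕ) (x μ : ℚ) (k : ℕ) (r : List ℕ) (B C : LM) : ℚ :=
  sidePot q x μ k (ltr r B) (ltr r (lmul r B B)) (ltr r (lmul r (lmul r B B) B))
    (ltr r (lmul r (lmul r B B) (lmul r B B))) (lsum r fun c => gt (lmul r B B) c c ^ 2)
    (lsum r fun c => gt B c c ^ 2) (ltr r (lmul r (lmul r B B) C))

def lpot (q : ℕ) (x μ : ℚ) (k : ℕ) (r : List ℕ) (Bp Bm : LM) : ℚ :=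
  lside q x μ k r Bp Bm + lside q x μ k r Bm Bp

def pg (π : List ℕ) (c : ℕ) : ℕ := π.getD c 0

def llink (r : List ℕ) (π : List ℕ) (a b : ℕ) : List ℕ :=
  r.map fun c => if c = a then b else if c = b then a else pg π c

def lbad (d : ℕ) (r : List ℕ) (π : List ℕ) (a b : ℕ) : Bool :=
  eqb (a / d) (b / d) ||
    r.any fun c => !(eqb (pg π c) c) && (eqb (c / d) (a / d) && eqb (pg π c / d) (b / d))

/-- global data: the index list, `q`, `x`, `μ` -/
abbrev Gl : Type := List ℕ × ℕ × ℚ × ℚ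
/-- number of free half-edges, the two matrices, the matching -/
abbrev Lo : Type := ℕ × LM × LM × List ℕ

def pairs (r : List ℕ) : List (ℕ × ℕ) := r.flatMap fun a => r.map fun b => (a, b)

def admis (d : ℕ) (g : Gl) (t : Lo) (p : ℕ × ℕ) : Bool :=
  eqb (pg t.2.2.2 p.1) p.1 && (eqb (pg t.2.2.2 p.2) p.2 && (!(eqb p.1 p.2) &&
    (!(lbad d g.1 t.2.2.2 p.1 p.2) &&
      (decide (0 < lrho 1 t.2.1 p.1 p.2) && decide (0 < lrho (-1) t.2.2.1 p.1 p.2)))))

def apply (g : Gl) (t : Lo) (p : ℕ × ℕ) : Lo :=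
  (t.1 - 2, lstep g.1 1 t.2.1 p.1 p.2, lstep g.1 (-1) t.2.2.1 p.1 p.2, llink g.1 t.2.2.2 p.1 p.2)

def val (g : Gl) (t : Lo) : ℚ := lpot g.2.1 g.2.2.1 g.2.2.2 t.1 g.1 t.2.1 t.2.2.1

def cands (d : ℕ) (g : Gl) (t : Lo) : List (ℚ × Lo) :=
  ((pairs g.1).filter (admis d g t)).map fun p => (val g (apply g t p), apply g t p)

def best (hd : ℚ × Lo) (tl : List (ℚ × Lo)) : ℚ × Lo :=
  tl.foldl (fun b c => bif decide (c.1 < b.1) then c else b) hd

def mainStep (d : ℕ) (σ : Gl × Lo) : Gl × Lo :=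
  bif ltb σ.2.1 (kEnd σ.1.2.1 + 2) then σ
  else lcase (cands d σ.1 σ.2) σ fun hd tl => (σ.1, (best hd tl).2)

/-- test for simplicity of the graph given by a matching -/
def lok (d : ℕ) (r : List ℕ) (π : List ℕ) : Bool :=
  r.all fun c => eqb (pg π c) c || (!(eqb (pg π c / d) (c / d)) &&
    r.all fun c' => eqb (pg π c') c' ||
      (!(eqb (c / d) (c' / d) && eqb (pg π c / d) (pg π c' / d)) || eqb c c'))

def freePairs (r : List ℕ) (π : List ℕ) : List (ℕ × ℕ) :=
  (pairs r).filter fun p => eqb (pg π p.1) p.1 && (eqb (pg π p.2) p.2 && !(eqb p.1 p.2))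

def ccands (r : List ℕ) (π0 π : List ℕ) : List (List ℕ) :=
  (freePairs r π).flatMap fun p => llink r π p.1 p.2 ::
    ((r.filter fun x => eqb (pg π0 x) x && !(eqb (pg π x) x)).map fun x =>
      llink r (llink r π p.1 x) p.2 (pg π x))

def compStep (d : ℕ) (σ : List ℕ × List ℕ × List ℕ) : List ℕ × List ℕ × List ℕ :=
  lcase ((ccands σ.1 σ.2.1 σ.2.2).filter (lok d σ.1)) σ fun hd _ => (σ.1, σ.2.1, hd)

/-- the largest `q` with `q ^ 6000 ≤ n` -/
def lq (n : List Unit) : ℕ :=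
  ((List.range n.length).filter fun i => !(ltb n.length ((i + 1) ^ 6000))).length

/-- integer square root of `X`, correct if it is at most `n` -/
def lsqrt (n : List Unit) (X : ℕ) : ℕ :=
  ((List.range n.length).filter fun i => !(ltb X ((i + 1) * (i + 1)))).length

def lm (d : ℕ) (n : List Unit) : ℚ :=
  ((lsqrt n ((lq n ^ 1902) ^ 2 / (d - 1)) : ℚ) - 1) / (lq n : ℚ) ^ 1902

def lg (d : ℕ) (n : List Unit) : ℚ := lm d n + 6 * d / ((lq n : ℚ) ^ 1902) ^ 2

def lr (d : ℕ) (n : List Unit) : List ℕ := List.range (n.length * d)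

def lBp (d : ℕ) (n : List Unit) : LM := lB0 d (lr d n) 1 (lg d n) (lm d n)
def lBm (d : ℕ) (n : List Unit) : LM := lB0 d (lr d n) (-1) (lg d n) (lm d n)

def lgl (d : ℕ) (n : List Unit) : Gl :=
  (lr d n, lq n, ((n.length * d : ℕ) : ℚ) + 1 - ltr (lr d n) (lmul (lr d n) (lBp d n) (lBp d n)),
    ltr (lr d n) (lmul (lr d n) (lmul (lr d n) (lBp d n) (lBp d n)) (lBp d n)) - 1)

def start (d : ℕ) (n : List Unit) : Gl × Lo :=
  (lgl d n, n.length * d, lBp d n, lBm d n, lr d n)

def pad (κ : ℕ) (n : List Unit) : List Unit := List.replicate ((n.length + 2) ^ κ) ()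

/-- the matching after the main phase -/
def piMain (d κ : ℕ) (n : List Unit) : List ℕ :=
  (padIter (mainStep d) (pad κ n) (start d n)).2.2.2.2

/-- the final matching -/
def piFin (d κ : ℕ) (n : List Unit) : List ℕ :=
  (padIter (compStep d) (pad κ n) (lr d n, piMain d κ n, piMain d κ n)).2.2

def lrel (d : ℕ) (π : List ℕ) (u v : ℕ) : Bool :=
  (List.range d).any fun j => eqb (pg π (j + d * u) / d) v

def outp (d : ℕ) (n : List Unit) (π : List ℕ) : List Bool :=
  (List.range n.length).flatMap fun u => (List.range n.length).map fun v =>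
    !(eqb u v) && (lrel d π u v || lrel d π v u)

/-- the algorithm -/
def alg (d κ : ℕ) (n : List Unit) : List Bool := outp d n (piFin d κ n)

/-! interpretation of lists -/

/-- position of a half-edge -/
def ix {n d : ℕ} (c : HE n d) : ℕ := c.2.val + d * c.1.val

def toM (n d : ℕ) (A : LM) : Matrix (HE n d) (HE n d) ℚ := fun c e => gt A (ix c) (ix e)

/-- the list `l` represents the map `π` -/
def RepP {n d : ℕ} (l : List ℕ) (π : HE n d → HE n d) : Prop :=
  l.length = n * d ∧ ∀ c, pg l (ix c) = ix (π c)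

/-- a list matrix of the right shape -/
def Shape (N : ℕ) (A : LM) : Prop := A.length = N ∧ ∀ l ∈ A, l.length = N

end Vale.Agent.P049
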