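import Vale.Agent.P049.RatPT

/-! P049: the matrix routines are polynomial time. -/

namespace Vale.Agent.P049

open Vale.Agent.Lib.H23 Vale.Agent.P338

variable {α : Type} [Enc α]

theorem apt1_ite {β : Type} (u v : ℕ) (a b : β) :
    (if u = v then a else b) = bif eqb u v then a else b := by
  by_cases h : u = v <;> simp [h]

theorem apt1_ite4 {β : Type} (c e a b : ℕ) (y z : β) :
    (if c = a ∨ c = b ∨ e = a ∨ e = b then y else z) =
      bif (eqb c a || (eqb c b || (eqb e a || eqb e b))) then y else z := by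
  by_cases h1 : c = a <;> by_cases h2 : c = b <;> by_cases h3 : e = a <;> by_cases h4 : e = b <;>
    simp [h1, h2, h3, h4]

theorem apt1_tab {r : α → List ℕ} {f : α → ℕ → ℕ → ℚ} (hr : PT r)
    (hf : PT fun p : (α × ℕ) × ℕ => f p.1.1 p.1.2 p.2) : PT fun x => tab (r x) (f x) :=
  PT.map (f := fun x i => (r x).map fun j => f x i j)
    (PT.map (f := fun (p : α × ℕ) j => f p.1 p.2 j) hf (PT.comp hr PT.fst')) hr

theorem apt1_lsum {r : α → List ℕ} {f : α → ℕ → ℚ} (hr : PT r)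
    (hf : PT fun p : α × ℕ => f p.1 p.2) : PT fun x => lsum (r x) (f x) :=
  pt_qsum (PT.map hf hr)

@[fun_prop] theorem pt_gt {A : α → LM} {i j : α → ℕ} (hA : PT A) (hi : PT i) (hj : PT j) :
    PT fun x => gt (A x) (i x) (j x) :=
  PT.getD (PT.getD hA hi (PT.const [])) hj (PT.const 0)
@[fun_prop] theorem pt_pg {l : α → List ℕ} {i : α → ℕ} (hl : PT l) (hi : PT i) :
    PT fun x => pg (l x) (i x) :=
  PT.getD hl hi (PT.const 0)
@[fun_prop] theorem pt_lmul {r : α → List ℕ} {A B : α → LM} (hr : PT r) (hA : PT A) (hB : PT B) :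
    PT fun x => lmul (r x) (A x) (B x) :=
  apt1_tab (f := fun x i j => lsum (r x) fun k => gt (A x) i k * gt (B x) k j) hr
    (apt1_lsum (f := fun (p : (α × ℕ) × ℕ) k => gt (A p.1.1) p.1.2 k * gt (B p.1.1) k p.2)
      (by fun_prop) (by fun_prop))
@[fun_prop] theorem pt_ltr {r : α → List ℕ} {A : α → LM} (hr : PT r) (hA : PT A) :
    PT fun x => ltr (r x) (A x) :=
  apt1_lsum (f := fun x i => gt (A x) i i) hr (by fun_prop)
@[fun_prop] theorem pt_lrho {s : α → ℚ} {B : α → LM} {a b : α → ℕ} (hs : PT s) (hB : PT B)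
    (ha : PT a) (hb : PT b) : PT fun x => lrho (s x) (B x) (a x) (b x) :=
  pt_qsub (pt_qpow (pt_qsub hs (pt_gt hB ha hb)) 2) (pt_qmul (pt_gt hB ha ha) (pt_gt hB hb hb))
@[fun_prop] theorem pt_lstep {r : α → List ℕ} {s : α → ℚ} {B : α → LM} {a b : α → ℕ} (hr : PT r)
    (hs : PT s) (hB : PT B) (ha : PT a) (hb : PT b) :
    PT fun x => lstep (r x) (s x) (B x) (a x) (b x) := by
  unfold lstep
  simp only [apt1_ite4]
  refine apt1_tab hr ?_
  have hs' : PT fun p : (α × ℕ) × ℕ => s p.1.1 := by fun_prop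
  have hB' : PT fun p : (α × ℕ) × ℕ => B p.1.1 := by fun_prop
  have ha' : PT fun p : (α × ℕ) × ℕ => a p.1.1 := by fun_prop
  have hb' : PT fun p : (α × ℕ) × ℕ => b p.1.1 := by fun_prop
  have hc : PT fun p : (α × ℕ) × ℕ => p.1.2 := by fun_prop
  have he : PT fun p : (α × ℕ) × ℕ => p.2 := by fun_prop
  exact PT.cond (by fun_prop) (PT.const 0) (pt_qadd (pt_gt hB' hc he) (pt_qdiv
    (pt_qadd (pt_qadd
      (pt_qmul (pt_qmul (pt_gt hB' hb' hb') (pt_gt hB' hc ha')) (pt_gt hB' he ha'))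
      (pt_qmul (pt_qmul (pt_gt hB' ha' ha') (pt_gt hB' hc hb')) (pt_gt hB' he hb')))
      (pt_qmul (pt_qsub hs' (pt_gt hB' ha' hb'))
        (pt_qadd (pt_qmul (pt_gt hB' hc ha') (pt_gt hB' he hb'))
          (pt_qmul (pt_gt hB' hc hb') (pt_gt hB' he ha')))))
    (pt_lrho hs' hB' ha' hb')))
@[fun_prop] theorem pt_lB0 (d : ℕ) {r : α → List ℕ} {s γ m : α → ℚ} (hr : PT r) (hs : PT s)
    (hγ : PT γ) (hm : PT m) : PT fun x => lB0 d (r x) (s x) (γ x) (m x) := by
  unfold lB0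
  simp only [apt1_ite]
  refine apt1_tab hr ?_
  have hs' : PT fun p : (α × ℕ) × ℕ => s p.1.1 := by fun_prop
  have hγ' : PT fun p : (α × ℕ) × ℕ => γ p.1.1 := by fun_prop
  have hm' : PT fun p : (α × ℕ) × ℕ => m p.1.1 := by fun_prop
  have hr' : PT fun p : (α × ℕ) × ℕ => r p.1.1 := by fun_prop
  exact pt_qadd (pt_qsub (PT.cond (by fun_prop) hγ' (PT.const 0))
    (PT.cond (by fun_prop) hm' (PT.const 0)))
    (pt_qdiv (pt_qsub (pt_qadd hs' hm') (pt_qmul hγ' (PT.const _))) (pt_qcast hr'.length))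
@[fun_prop] theorem pt_llink {r l : α → List ℕ} {a b : α → ℕ} (hr : PT r) (hl : PT l)
    (ha : PT a) (hb : PT b) : PT fun x => llink (r x) (l x) (a x) (b x) := by
  unfold llink
  simp only [apt1_ite]
  exact PT.map (f := fun x c => bif eqb c (a x) then b x else
    bif eqb c (b x) then a x else pg (l x) c) (by fun_prop) hr
@[fun_prop] theorem pt_lbad (d : ℕ) {r l : α → List ℕ} {a b : α → ℕ} (hr : PT r) (hl : PT l)
    (ha : PT a) (hb : PT b) : PT fun x => lbad d (r x) (l x) (a x) (b x) := by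
  unfold lbad
  have h : PT fun x => (r x).any fun c => !(eqb (pg (l x) c) c) &&
      (eqb (c / d) (a x / d) && eqb (pg (l x) c / d) (b x / d)) :=
    PT.any (f := fun x c => !(eqb (pg (l x) c) c) &&
      (eqb (c / d) (a x / d) && eqb (pg (l x) c / d) (b x / d))) (by fun_prop) hr
  fun_prop
@[fun_prop] theorem pt_pairs {r : α → List ℕ} (hr : PT r) : PT fun x => pairs (r x) :=
  PT_flatMap (f := fun x a => (r x).map fun b => (a, b))
    (PT.map (f := fun (p : α × ℕ) b => (p.2, b)) (by fun_prop) (by fun_prop)) hr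
@[fun_prop] theorem pt_lok (d : ℕ) {r l : α → List ℕ} (hr : PT r) (hl : PT l) :
    PT fun x => lok d (r x) (l x) := by
  unfold lok
  refine PT.all (f := fun x c => eqb (pg (l x) c) c || (!(eqb (pg (l x) c / d) (c / d)) &&
    (r x).all fun c' => eqb (pg (l x) c') c' ||
      (!(eqb (c / d) (c' / d) && eqb (pg (l x) c / d) (pg (l x) c' / d)) || eqb c c'))) ?_ hr
  have h : PT fun p : α × ℕ => (r p.1).all fun c' => eqb (pg (l p.1) c') c' ||
      (!(eqb (p.2 / d) (c' / d) && eqb (pg (l p.1) p.2 / d) (pg (l p.1) c' / d)) || eqb p.2 c') :=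
    PT.all (f := fun (p : α × ℕ) c' => eqb (pg (l p.1) c') c' ||
      (!(eqb (p.2 / d) (c' / d) && eqb (pg (l p.1) p.2 / d) (pg (l p.1) c' / d)) || eqb p.2 c'))
      (by fun_prop) (by fun_prop)
  fun_prop

end Vale.Agent.P049
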