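import Vale.Agent.P049.AlgPT1

/-! P049: the algorithm is polynomial time, given that the potential is. -/

namespace Vale.Agent.P049

open Vale.Agent.Lib.H23 Vale.Agent.P338

open Polynomial in
theorem pt2_best : PT fun p : (ℚ × Lo) × List (ℚ × Lo) => best p.1 p.2 := by
  refine PT.foldl' (f := fun _ (b c : ℚ × Lo) => bif decide (c.1 < b.1) then c else b)
    (by fun_prop) (by fun_prop) (by fun_prop) ⟨X, fun x s a => ?_⟩
  rw [eval_X]
  cases decide (a.1 < s.1)
  · simp
  · simp only [cond_true]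
    omega

theorem pt2_admis (d : ℕ) : PT fun p : (Gl × Lo) × ℕ × ℕ => admis d p.1.1 p.1.2 p.2 := by
  unfold admis
  fun_prop

theorem pt2_apply : PT fun p : (Gl × Lo) × ℕ × ℕ => apply p.1.1 p.1.2 p.2 := by
  unfold apply
  fun_prop

theorem pt2_cands (d : ℕ) (hval : PT fun p : Gl × Lo => val p.1 p.2) :
    PT fun p : Gl × Lo => cands d p.1 p.2 := by
  refine PT.map (f := fun (x : Gl × Lo) (p : ℕ × ℕ) => (val x.1 (apply x.1 x.2 p), apply x.1 x.2 p))
    (PT.pair ?_ pt2_apply) (PT_filter (f := fun (x : Gl × Lo) p => admis d x.1 x.2 p)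
      (pt2_admis d) (by fun_prop))
  exact PT.comp (g := fun p : (Gl × Lo) × ℕ × ℕ => (p.1.1, apply p.1.1 p.1.2 p.2)) hval
    (PT.pair (by fun_prop) pt2_apply)

theorem pt_mainStep (d : ℕ) (hval : PT fun p : Gl × Lo => val p.1 p.2) : PT (mainStep d) := by
  have h1 : PT fun σ : Gl × Lo => ltb σ.2.1 (kEnd σ.1.2.1 + 2) := by
    unfold kEnd
    exact PT.ltb (by fun_prop) (PT.add (pt_npow (by fun_prop) _) (by fun_prop))
  refine PT.cond h1 PT.id (PT.lcase (h := fun (σ : Gl × Lo) hd tl => (σ.1, (best hd tl).2))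
    (pt2_cands d hval) PT.id (PT.pair (by fun_prop) ?_))
  exact (PT.comp (g := fun p : (Gl × Lo) × (ℚ × Lo) × List (ℚ × Lo) => p.2) pt2_best
    (by fun_prop)).snd

theorem pt2_freePairs : PT fun p : List ℕ × List ℕ => freePairs p.1 p.2 := by
  unfold freePairs
  fun_prop

theorem pt2_ccands : PT fun σ : List ℕ × List ℕ × List ℕ => ccands σ.1 σ.2.1 σ.2.2 := by
  unfold ccands
  refine PT_flatMap ?_ (PT.comp (g := fun σ : List ℕ × List ℕ × List ℕ => (σ.1, σ.2.2))
    pt2_freePairs (by fun_prop))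
  refine PT.cons (by fun_prop) (PT.map (by fun_prop) (PT_filter (by fun_prop) (by fun_prop)))

theorem pt_compStep (d : ℕ) : PT (compStep d) := by
  exact PT.lcase (h := fun (σ : List ℕ × List ℕ × List ℕ) hd _ => (σ.1, σ.2.1, hd))
    (PT_filter (f := fun (σ : List ℕ × List ℕ × List ℕ) l => lok d σ.1 l) (by fun_prop)
      pt2_ccands) PT.id (by fun_prop)

theorem pt2_range {α : Type} [Enc α] {l : α → List Unit} (hl : PT l) :
    PT fun x => List.range (l x).length :=
  PT.comp (f := fun l : List Unit => List.range l.length) PT_rangeLen hl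

theorem pt2_lq : PT lq := by
  unfold lq
  refine PT.length (PT_filter ?_ PT_rangeLen)
  exact PT.not (PT.ltb (by fun_prop) (pt_npow (by fun_prop) _))

theorem pt2_lsqrt : PT fun p : List Unit × ℕ => lsqrt p.1 p.2 := by
  unfold lsqrt
  exact PT.length (PT_filter (by fun_prop) (pt2_range PT.fst'))

theorem pt2_lm (d : ℕ) : PT (lm d) := by
  unfold lm
  refine pt_qdiv (pt_qsub (pt_qcast ?_) (PT.const _)) (pt_qpow (pt_qcast pt2_lq) _)
  exact PT.comp (g := fun n : List Unit => (n, (lq n ^ 1902) ^ 2 / (d - 1))) pt2_lsqrt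
    (PT.pair PT.id (PT.div (pt_npow (pt_npow pt2_lq _) _) (PT.const _)))

theorem pt2_lg (d : ℕ) : PT (lg d) := by
  unfold lg
  exact pt_qadd (pt2_lm d) (pt_qdiv (PT.const _) (pt_qpow (pt_qpow (pt_qcast pt2_lq) _) _))

theorem pt2_lr (d : ℕ) : PT (lr d) :=
  PT_range (u := fun n : List Unit => unMul (unLen n) ⟨d⟩) (by fun_prop)

theorem pt2_lBp (d : ℕ) : PT (lBp d) := pt_lB0 d (pt2_lr d) (PT.const _) (pt2_lg d) (pt2_lm d)

theorem pt2_lBm (d : ℕ) : PT (lBm d) := pt_lB0 d (pt2_lr d) (PT.const _) (pt2_lg d) (pt2_lm d)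

theorem pt2_lgl (d : ℕ) : PT (lgl d) := by
  have h1 := pt2_lr d
  have h2 := pt2_lBp d
  have h3 := pt_lmul h1 h2 h2
  exact PT.pair h1 (PT.pair pt2_lq (PT.pair
    (pt_qsub (pt_qadd (pt_qcast (by fun_prop)) (PT.const _)) (pt_ltr h1 h3))
    (pt_qsub (pt_ltr h1 (pt_lmul h1 h3 h2)) (PT.const _))))

theorem pt_start (d : ℕ) : PT (start d) := by
  exact PT.pair (pt2_lgl d) (PT.pair (by fun_prop) (PT.pair (pt2_lBp d) (PT.pair (pt2_lBm d)
    (pt2_lr d))))

theorem pt2_pad (κ : ℕ) : PT (pad κ) := by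
  induction κ with
  | zero => exact (PT.const [()]).congr fun n => by simp [pad]
  | succ κ ih =>
    have h : PT fun n : List Unit => unMul (unLen (pad κ n)) (unAdd (unLen n) ⟨2⟩) :=
      PT_unMul (PT_unLen ih) (by fun_prop)
    exact (PT_unL h).congr fun n => by simp [pad, unMul, unLen, unAdd, pow_succ]

theorem pt2_outp (d : ℕ) : PT fun p : List Unit × List ℕ => outp d p.1 p.2 := by
  have h : ∀ {α : Type} [Enc α] {l : α → List ℕ} {u v : α → ℕ}, PT l → PT u → PT v →
      PT fun x => lrel d (l x) (u x) (v x) := by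
    intro α _ l u v hl hu hv
    unfold lrel
    fun_prop
  unfold outp
  refine PT_flatMap (PT.map ?_ (pt2_range (by fun_prop))) (pt2_range PT.fst')
  exact PT.and (by fun_prop) (PT.or (h (by fun_prop) (by fun_prop) (by fun_prop))
    (h (by fun_prop) (by fun_prop) (by fun_prop)))

theorem pt_alg (d κ : ℕ) (hval : PT fun p : Gl × Lo => val p.1 p.2) : PT (alg d κ) := by
  have h1 : PT (piMain d κ) :=
    (PT.padIter (pt_mainStep d hval) (pt2_pad κ) (pt_start d)).snd.snd.snd.snd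
  have h2 : PT (piFin d κ) :=
    (PT.padIter (pt_compStep d) (pt2_pad κ) (PT.pair (pt2_lr d) (PT.pair h1 h1))).snd.snd
  exact PT.comp (g := fun n : List Unit => (n, piFin d κ n)) (pt2_outp d) (PT.pair PT.id h2)

end Vale.Agent.P049
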