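import Vale.Agent.P049.Alg
import Mathlib.Tactic

/-! P049: integrality of the scaled minors and bit sizes. -/

namespace Vale.Agent.P049

open Finset Matrix Vale.Agent.Lib.H23

variable {ι : Type} [Fintype ι] [DecidableEq ι] {c0 : ℕ} {D : ℤ} {H : Finset ι}
  {B : Matrix ι ι ℚ}

omit [Fintype ι] [DecidableEq ι] in
theorem iinv_init (h : ∀ c e, ∃ z : ℤ, (c0 : ℚ) * B c e = z) : IInv c0 1 H B := by
  intro κ _ _ r c E _ _
  choose Z hZ using h
  let M : Matrix κ κ ℤ := Matrix.of fun i j => Z (r i) (c j) + c0 * E i j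
  refine ⟨M.det, ?_⟩
  have h1 : (c0 : ℚ) • (B.submatrix r c + E.map (Int.cast : ℤ → ℚ)) =
      (Int.castRingHom ℚ).mapMatrix M := by
    ext i j
    simp only [M, Matrix.smul_apply, Matrix.add_apply, Matrix.submatrix_apply, Matrix.map_apply,
      smul_eq_mul, RingHom.mapMatrix_apply, eq_intCast, Matrix.of_apply]
    push_cast
    rw [← hZ]
    ring
  have h2 := Matrix.det_smul (B.submatrix r c + E.map (Int.cast : ℤ → ℚ)) (c0 : ℚ)
  rw [h1, ← RingHom.map_det] at h2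
  simp only [eq_intCast] at h2
  rw [h2]
  push_cast
  ring

omit [Fintype ι] [DecidableEq ι] in
theorem iinv_entry (h : IInv c0 D H B) {c e : ι} (hc : c ∈ H) (he : e ∈ H) :
    ∃ z : ℤ, (c0 : ℚ) * D * B c e = z := by
  obtain ⟨z, hz⟩ := h Unit (fun _ => c) (fun _ => e) 0 (fun _ => hc) (fun _ => he)
  refine ⟨z, ?_⟩
  rw [← hz]
  simp

omit [Fintype ι] in
theorem iinv_step {s : ℚ} (hs : s = 1 ∨ s = -1) (hB : B.IsSymm) (h : IInv c0 D H B) {a b : ι}
    (ha : a ∈ H) (hb : b ∈ H) (hab : a ≠ b) (hr : rho s B a b ≠ 0) :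
    ∃ D' : ℤ, (D' : ℚ) = D * (c0 : ℚ) ^ 2 * rho s B a b ∧
      IInv c0 D' ((H.erase a).erase b) (step s B a b) := by
  obtain ⟨σ, hσ⟩ : ∃ σ : ℤ, (σ : ℚ) = s := by
    rcases hs with rfl | rfl
    · exact ⟨1, by simp⟩
    · exact ⟨-1, by simp⟩
  have hsym : ∀ x y, B x y = B y x := fun x y => (hB.apply x y).symm
  let K : Matrix (Fin 2) (Fin 2) ℚ := !![B a a, B a b - s; B a b - s, B b b]
  let E0 : Matrix (Fin 2) (Fin 2) ℤ := !![0, -σ; -σ, 0]
  have hK : B.submatrix ![a, b] ![a, b] + E0.map (Int.cast : ℤ → ℚ) = K := by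
    ext i j
    rw [Matrix.add_apply, Matrix.submatrix_apply, Matrix.map_apply]
    fin_cases i <;> fin_cases j <;> simp [K, E0, hσ, hsym b a, sub_eq_add_neg]
  have hdet : K.det = -rho s B a b := by
    simp only [K, Matrix.det_fin_two_of, rho]
    ring
  have hab' : ∀ i : Fin 2, (![a, b] : Fin 2 → ι) i ∈ H := by
    intro i
    fin_cases i
    · exact ha
    · exact hb
  obtain ⟨z, hz⟩ := h (Fin 2) ![a, b] ![a, b] E0 hab' hab'
  rw [hK, hdet, Fintype.card_fin] at hz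
  have hD : ((-z : ℤ) : ℚ) = D * (c0 : ℚ) ^ 2 * rho s B a b := by
    push_cast
    rw [← hz]
    ring
  refine ⟨-z, hD, ?_⟩
  intro κ _ _ r c E hrH hcH
  let Ki : Matrix (Fin 2) (Fin 2) ℚ :=
    (-(rho s B a b)⁻¹) • !![B b b, s - B a b; s - B a b, B a a]
  have hrho : rho s B a b = (s - B a b) ^ 2 - B a a * B b b := rfl
  have hmul : K * Ki = 1 := by
    ext i j
    fin_cases i <;> fin_cases j <;>
      simp [K, Ki, Matrix.mul_apply, Fin.sum_univ_two] <;> field_simp <;> rw [hrho] <;> ring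
  have hmul' : Ki * K = 1 := mul_eq_one_comm.1 hmul
  let _ : Invertible K := ⟨Ki, hmul', hmul⟩
  have hinv : ⅟K = Ki := rfl
  obtain ⟨w, hw⟩ := h (Fin 2 ⊕ κ) (Sum.elim ![a, b] r) (Sum.elim ![a, b] c)
    (Matrix.fromBlocks E0 0 0 E)
    (by
      rintro (i | i)
      · exact hab' i
      · exact mem_of_mem_erase (mem_of_mem_erase (hrH i)))
    (by
      rintro (i | i)
      · exact hab' i
      · exact mem_of_mem_erase (mem_of_mem_erase (hcH i)))
  have hblk : B.submatrix (Sum.elim ![a, b] r) (Sum.elim ![a, b] c) +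
      (Matrix.fromBlocks E0 0 0 E).map (Int.cast : ℤ → ℚ) =
      Matrix.fromBlocks K (B.submatrix ![a, b] c) (B.submatrix r ![a, b])
        (B.submatrix r c + E.map (Int.cast : ℤ → ℚ)) := by
    rw [← hK]
    generalize (![a, b] : Fin 2 → ι) = v
    ext (i | i) (j | j) <;> simp
  have hschur : (B.submatrix r c + E.map (Int.cast : ℤ → ℚ)) -
      B.submatrix r ![a, b] * Ki * B.submatrix ![a, b] c =
      (step s B a b).submatrix r c + E.map (Int.cast : ℤ → ℚ) := by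
    ext i j
    have h1 := hrH i
    have h2 := hcH j
    simp only [mem_erase] at h1 h2
    have hne : ¬ (r i = a ∨ r i = b ∨ c j = a ∨ c j = b) := by tauto
    simp only [Matrix.sub_apply, Matrix.add_apply, Matrix.submatrix_apply, step, if_neg hne,
      Matrix.mul_apply, Fin.sum_univ_two, Ki, Matrix.smul_apply, smul_eq_mul, Matrix.of_apply,
      Matrix.cons_val', Matrix.cons_val_zero, Matrix.cons_val_one, Matrix.cons_val_fin_one]
    rw [hsym a (c j), hsym b (c j)]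
    field_simp
    ring
  rw [hblk, Matrix.det_fromBlocks₁₁, hinv, hschur, hdet, Fintype.card_sum, Fintype.card_fin] at hw
  refine ⟨-w, ?_⟩
  rw [hD]
  push_cast
  rw [← hw]
  ring

/-- the initial matrices have the common denominator `Q ^ 2 * (n * d)` -/
theorem B0_int {n d q : ℕ} (hn : 0 < n) (hd : 0 < d) (hq : 0 < q) {s : ℚ} (hs : s = 1 ∨ s = -1)
    (c e : HE n d) : ∃ z : ℤ, (((q ^ 1902) ^ 2 * (n * d) : ℕ) : ℚ) *
      B0 n d s (par_g ℚ d q) (par_m ℚ d q) c e = z := by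
  obtain ⟨σ, hσ⟩ : ∃ σ : ℤ, (σ : ℚ) = s := by
    rcases hs with rfl | rfl
    · exact ⟨1, by simp⟩
    · exact ⟨-1, by simp⟩
  have hQ0 : 0 < q ^ 1902 := pow_pos hq _
  simp only [B0, par_g, par_m]
  have hc : ((q : ℚ)) ^ 1902 = ((q ^ 1902 : ℕ) : ℚ) := by push_cast; rfl
  rw [hc]
  generalize q ^ 1902 = Q at hQ0 ⊢
  generalize Nat.sqrt (Q ^ 2 / (d - 1)) = S
  have hQ : (Q : ℚ) ≠ 0 := by positivity
  have hn' : (n : ℚ) ≠ 0 := by positivity
  have hd' : (d : ℚ) ≠ 0 := by positivity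
  refine ⟨(if c.1 = e.1 then (((S : ℤ) - 1) * Q + 6 * d) * (n * d) else 0)
    - (if c = e then ((S : ℤ) - 1) * Q * (n * d) else 0)
    + (σ * Q ^ 2 + (S - 1) * Q - ((S - 1) * Q + 6 * d) * d), ?_⟩
  rw [← hσ]
  split_ifs <;> push_cast <;> field_simp <;> ring

theorem sz_rat_le {x : ℚ} {C : ℤ} {k : ℕ} (hC : 0 < C) (hz : ∃ z : ℤ, (C : ℚ) * x = z)
    (h1 : C < 2 ^ k) (h2 : |x| < 2 ^ k) : sz x ≤ 12 * k + 20 := by
  obtain ⟨z, hz⟩ := hz
  have hC' : (C : ℚ) ≠ 0 := by positivity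
  have hx : x = (z : ℚ) / (C : ℚ) := by rw [← hz]; field_simp
  have hden : (x.den : ℤ) ∣ C := by
    rw [hx, ← Rat.divInt_eq_div]
    exact Rat.den_dvd z C
  have hd1 : (x.den : ℤ) ≤ C := Int.le_of_dvd hC hden
  have hd2 : x.den < 2 ^ k := by
    have : (x.den : ℤ) < ((2 ^ k : ℕ) : ℤ) := by push_cast; omega
    exact_mod_cast this
  have hn : x.num.natAbs < 2 ^ (2 * k) := by
    have e1 : (x.num : ℚ) = x * x.den := (Rat.mul_den_eq_num x).symm
    have e2 : ((x.num.natAbs : ℕ) : ℚ) = |x| * x.den := by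
      rw [Nat.cast_natAbs, Int.cast_abs, e1, abs_mul, Nat.abs_cast]
    have e3 : (x.den : ℚ) < 2 ^ k := by exact_mod_cast hd2
    have e4 : ((x.num.natAbs : ℕ) : ℚ) < 2 ^ (2 * k) := by
      rw [e2, two_mul, pow_add]
      exact mul_lt_mul'' h2 e3 (abs_nonneg _) (by positivity)
    exact_mod_cast e4
  have s1 : sz x = sz (x.num, x.den) := rfl
  have s2 : sz x.num = sz (decide (x.num < 0), x.num.natAbs) := rfl
  have s3 := sz_nat_le hn
  have s4 := sz_nat_le hd2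
  have s5 := sz_bool (decide (x.num < 0))
  rw [s1, sz_pair, s2, sz_pair]
  omega

theorem sz_LM_le {N b : ℕ} {A : LM} (h : Shape N A) (hb : ∀ i < N, ∀ j < N, sz (gt A i j) ≤ b) :
    sz A ≤ N * (N * (b + 1) + 2) + 1 := by
  have h1 : ∀ l ∈ A, sz l ≤ N * (b + 1) + 1 := by
    intro l hl
    have hlen := h.2 l hl
    obtain ⟨i, hi, rfl⟩ := List.getElem_of_mem hl
    have : ∀ x ∈ A[i], sz x ≤ b := by
      intro x hx
      obtain ⟨j, hj, rfl⟩ := List.getElem_of_mem hx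
      have := hb i (h.1 ▸ hi) j (hlen ▸ hj)
      simpa [gt, List.getD_eq_getElem?_getD, hi, hj] using this
    have h2 := sz_list_le this
    rwa [hlen] at h2
  have h2 := sz_list_le h1
  rwa [h.1] at h2

theorem sz_listNat_le {N : ℕ} {l : List ℕ} (h : l.length ≤ N) (hb : ∀ i ∈ l, i ≤ N) :
    sz l ≤ 5 * (N + 1) ^ 2 := by
  have h1 : ∀ i ∈ l, sz i ≤ 4 * N + 1 := by
    intro i hi
    exact sz_nat_le (lt_of_le_of_lt (hb i hi) Nat.lt_two_pow_self)
  have h2 := sz_list_le h1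
  have h3 : l.length * (4 * N + 1 + 1) ≤ N * (4 * N + 1 + 1) := Nat.mul_le_mul_right _ h
  nlinarith

end Vale.Agent.P049
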