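import Vale.Agent.P049.Spec
import Vale.Agent.P049.Match
import Vale.Agent.P049.Integral

/-! P049: the completion phase produces a perfect simple matching. -/

namespace Vale.Agent.P049

open Finset Vale.Agent.Lib.H23

section

variable {n d : ℕ} {l0 l : List ℕ} {π0 π : HE n d → HE n d} {H0 H : Finset (HE n d)}

theorem Comp_pg_eq (h : RepP l π) (c : HE n d) : pg l (ix c) = ix c ↔ π c = c := by
  rw [h.2]
  exact ⟨ix_inj, fun e => by rw [e]⟩

theorem Comp_mem (h0 : RepP l0 π0) (h : RepP l π) {l' : List ℕ} :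
    l' ∈ ccands (List.range (n * d)) l0 l ↔ ∃ a b : HE n d, π a = a ∧ π b = b ∧ a ≠ b ∧
      (l' = llink (List.range (n * d)) l (ix a) (ix b) ∨ ∃ x : HE n d, π0 x = x ∧ π x ≠ x ∧
        l' = llink (List.range (n * d)) (llink (List.range (n * d)) l (ix a) (ix x)) (ix b)
          (ix (π x))) := by
  simp only [ccands, freePairs, List.mem_flatMap, List.mem_filter, mem_pairs, List.mem_cons,
    List.mem_map, List.mem_range, eqb_eq, Bool.and_eq_true, decide_eq_true_eq, Bool.not_eq_true',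
    decide_eq_false_iff_not]
  constructor
  · rintro ⟨⟨i, j⟩, ⟨⟨h1, h2⟩, h3, h4, h5⟩, h6⟩
    obtain ⟨a, rfl⟩ := ix_surj h1
    obtain ⟨b, rfl⟩ := ix_surj h2
    refine ⟨a, b, (Comp_pg_eq h a).1 h3, (Comp_pg_eq h b).1 h4, fun e => h5 (by rw [e]), ?_⟩
    rcases h6 with h6 | ⟨k, ⟨h6, h7, h8⟩, h9⟩
    · exact Or.inl h6
    · obtain ⟨x, rfl⟩ := ix_surj h6
      exact Or.inr ⟨x, (Comp_pg_eq h0 x).1 h7, fun e => h8 ((Comp_pg_eq h x).2 e),
        by rw [← h9, h.2]⟩
  · rintro ⟨a, b, h1, h2, h3, h4⟩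
    refine ⟨(ix a, ix b), ⟨⟨ix_lt a, ix_lt b⟩, (Comp_pg_eq h a).2 h1, (Comp_pg_eq h b).2 h2,
      fun e => h3 (ix_inj e)⟩, ?_⟩
    rcases h4 with h4 | ⟨x, h4, h5, h6⟩
    · exact Or.inl h4
    · exact Or.inr ⟨ix x, ⟨ix_lt x, (Comp_pg_eq h0 x).2 h4, fun e => h5 ((Comp_pg_eq h x).1 e)⟩,
        by rw [h6, h.2]⟩

theorem Comp_link (hM : Mt H π) {a b : HE n d} (ha : π a = a) (hb : π b = b) (hab : a ≠ b) :
    (∀ c, link π a b (link π a b c) = c) ∧
      ∀ c, c ∈ (H.erase a).erase b ↔ link π a b c = c := by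
  have h1 := hM.inv
  have h2 := hM.alive
  simp only [link, mem_erase]
  constructor <;> intro c <;> grind

theorem Comp_swap (hM : Mt H π) {a b x : HE n d} (ha : π a = a) (hb : π b = b) (hab : a ≠ b)
    (hx : π x ≠ x) :
    (∀ c, link (link π a x) b (π x) (link (link π a x) b (π x) c) = c) ∧
      ∀ c, c ∈ (H.erase a).erase b ↔ link (link π a x) b (π x) c = c := by
  have h1 := hM.inv
  have h2 := hM.alive
  simp only [link, mem_erase]
  constructor <;> intro c <;> grind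

/-- the invariant of the completion phase -/
def CInv (π0 : HE n d → HE n d) (H0 : Finset (HE n d)) (k : ℕ) (l : List ℕ) : Prop :=
  ∃ (H : Finset (HE n d)) (π : HE n d → HE n d), RepP l π ∧ Mt H π ∧ H ⊆ H0 ∧ H.card = k ∧
    ∀ c, c ∉ H0 → π c = π0 c

theorem Comp_closed (hM0 : Mt H0 π0) (hM : Mt H π) (h : ∀ c, c ∉ H0 → π c = π0 c) :
    ∀ x ∈ H0, π x ∈ H0 := by
  intro x hx
  by_contra h1
  have h2 := h _ h1
  have h3 := hM0.inv (π x)
  rw [hM.inv] at h2
  rw [← h2, (hM0.alive x).1 hx] at h3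
  exact h1 (h3 ▸ hx)

theorem Comp_step (hR : RepP l0 π0) (hM0 : Mt H0 π0) (hbig : 10 * d * d + 10 ≤ H0.card) {k : ℕ}
    (h : CInv π0 H0 (k + 2) l) :
    ∃ l', compStep d (List.range (n * d), l0, l) = (List.range (n * d), l0, l') ∧
      CInv π0 H0 k l' := by
  obtain ⟨H, π, h1, h2, h3, h4, h5⟩ := h
  have hcl := Comp_closed hM0 h2 h5
  have hne : (ccands (List.range (n * d)) l0 l).filter (lok d (List.range (n * d))) ≠ [] := by
    obtain ⟨a, ha, b, hb, hab, h6⟩ := complete_step h2 h3 hcl (by omega) hbig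
    rcases h6 with h6 | ⟨x, hx, hx', h6⟩
    · exact List.ne_nil_of_mem (List.mem_filter.2 ⟨(Comp_mem hR h1).2
        ⟨a, b, (h2.alive a).1 ha, (h2.alive b).1 hb, hab, Or.inl rfl⟩,
        (lok_iff (repP_link h1 a b)).2 ⟨h6.loop, h6.multi⟩⟩)
    · exact List.ne_nil_of_mem (List.mem_filter.2 ⟨(Comp_mem hR h1).2
        ⟨a, b, (h2.alive a).1 ha, (h2.alive b).1 hb, hab,
          Or.inr ⟨x, (hM0.alive x).1 hx, fun e => hx' ((h2.alive x).2 e), rfl⟩⟩,
        (lok_iff (repP_link (repP_link h1 a x) b (π x))).2 ⟨h6.loop, h6.multi⟩⟩)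
  obtain ⟨l', tl, e⟩ := List.exists_cons_of_ne_nil hne
  refine ⟨l', by simp only [compStep, e, lcase], ?_⟩
  obtain ⟨h6, h7⟩ := List.mem_filter.1 (e ▸ List.mem_cons_self)
  obtain ⟨a, b, ha, hb, hab, h8⟩ := (Comp_mem hR h1).1 h6
  have ha' := (h2.alive a).2 ha
  have hb' := (h2.alive b).2 hb
  have c1 : (H.erase a).erase b ⊆ H0 := ((erase_subset _ _).trans (erase_subset _ _)).trans h3
  have c2 : ((H.erase a).erase b).card = k := by
    rw [card_erase_of_mem (mem_erase.2 ⟨hab.symm, hb'⟩), card_erase_of_mem ha', h4]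
    rfl
  have ne : ∀ {c y : HE n d}, c ∉ H0 → y ∈ H0 → c ≠ y := fun h h' e => h (e ▸ h')
  rcases h8 with rfl | ⟨x, hx, hx', rfl⟩
  · have r := repP_link h1 a b
    refine ⟨_, _, r, ⟨(Comp_link h2 ha hb hab).1, (Comp_link h2 ha hb hab).2,
      ((lok_iff r).1 h7).1, ((lok_iff r).1 h7).2⟩, c1, c2, fun c hc => ?_⟩
    rw [link, if_neg (ne hc (h3 ha')), if_neg (ne hc (h3 hb')), h5 c hc]
  · have r := repP_link (repP_link h1 a x) b (π x)
    have hx0 := (hM0.alive x).2 hx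
    refine ⟨_, _, r, ⟨(Comp_swap h2 ha hb hab hx').1, (Comp_swap h2 ha hb hab hx').2,
      ((lok_iff r).1 h7).1, ((lok_iff r).1 h7).2⟩, c1, c2, fun c hc => ?_⟩
    rw [link, if_neg (ne hc (h3 hb')), if_neg (ne hc (hcl x hx0)), link, if_neg (ne hc (h3 ha')),
      if_neg (ne hc hx0), h5 c hc]

theorem Comp_sz (h : RepP l π) : sz l ≤ 5 * (n * d + 1) ^ 2 :=
  sz_listNat_le h.1.le fun i hi => (repP_mem h i hi).le

end

theorem comp_run {n d : ℕ} {l0 : List ℕ} {π0 : HE n d → HE n d} {H0 : Finset (HE n d)}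
    (hR : RepP l0 π0) (hM : Mt H0 π0) (hev : Even H0.card) (hbig : 10 * d * d + 10 ≤ H0.card)
    (P : List Unit) (hP : 20 * (n * d + 1) ^ 2 ≤ P.length) :
    ∃ π : HE n d → HE n d, RepP (padIter (compStep d) P (List.range (n * d), l0, l0)).2.2 π ∧
      Mt ∅ π ∧ ∀ c, c ∉ H0 → π c = π0 c := by
  obtain ⟨N, hN⟩ := hev
  have key : ∀ i ≤ N, ∃ l, (compStep d)^[i] (List.range (n * d), l0, l0) =
      (List.range (n * d), l0, l) ∧ CInv π0 H0 (2 * (N - i)) l := by
    intro i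
    induction i with
    | zero => exact fun _ => ⟨l0, rfl, H0, π0, hR, hM, subset_rfl, by omega, fun _ _ => rfl⟩
    | succ i ih =>
      intro hi
      obtain ⟨l, h1, h2⟩ := ih (by omega)
      rw [show 2 * (N - i) = 2 * (N - (i + 1)) + 2 by omega] at h2
      rw [Function.iterate_succ_apply', h1]
      exact Comp_step hR hM hbig h2
  obtain ⟨l, h1, H, π, h2, h3, -, h4, h5⟩ := key N le_rfl
  obtain rfl : H = ∅ := card_eq_zero.1 (by omega)
  have h6 : H0.card ≤ n * d := by simpa using card_le_univ H0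
  have h7 : n * d + 1 ≤ (n * d + 1) ^ 2 := Nat.le_self_pow two_ne_zero _
  rw [padIter_eq (N := N) (by omega), h1]
  · exact ⟨π, h2, h3, h5⟩
  · intro i hi
    obtain ⟨l', h8, -, π', h9, -⟩ := key i hi.le
    have a1 := Comp_sz (repP_id (n := n) (d := d))
    have a2 := Comp_sz hR
    have a3 := Comp_sz h9
    rw [h8, sz_pair, sz_pair]
    omega
  · have h8 : ccands (List.range (n * d)) l0 l = [] := List.eq_nil_iff_forall_not_mem.2 fun l' h => by
      obtain ⟨a, -, ha, -⟩ := (Comp_mem hR h2).1 h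
      exact notMem_empty a ((h3.alive a).2 ha)
    rw [h1]
    simp only [compStep, h8, List.filter_nil, lcase]

end Vale.Agent.P049
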