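import Vale.Agent.P049.Spec
import Vale.Agent.P049.Stmt

/-! P049: the graph of a perfect simple matching. -/

namespace Vale.Agent.P049

open Finset Matrix

/-- the graph described by a list -/
def gOf (d n : ℕ) (l : List ℕ) : SimpleGraph (Fin n) :=
  SimpleGraph.fromRel fun u v => lrel d l u.val v.val = true

open Vale.Agent.Lib.H23 in
theorem code_gOf (d : ℕ) (w : List Unit) (l : List ℕ) : code (gOf d w.length l) = outp d w l := by
  unfold code outp
  rw [← List.map_coe_finRange_eq_range, List.flatMap_map]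
  refine List.flatMap_congr fun u _ => ?_
  rw [List.map_map]
  refine List.map_congr_left fun v _ => ?_
  rw [Bool.eq_iff_iff]
  simp [gOf, SimpleGraph.fromRel_adj, Fin.ext_iff]

open Vale.Agent.Lib.H23 in
theorem Graph_lrel {n d : ℕ} {l : List ℕ} {π : HE n d → HE n d} (hR : RepP l π) (u v : Fin n) :
    lrel d l u.val v.val = true ↔ ∃ j, (π (u, j)).1 = v := by
  unfold lrel
  simp only [List.any_eq_true, List.mem_range, eqb_eq, decide_eq_true_eq]
  constructor
  · rintro ⟨j, hj, h⟩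
    refine ⟨⟨j, hj⟩, Fin.ext ?_⟩
    have h1 := hR.2 (u, ⟨j, hj⟩)
    rw [← ix_div, ← h1]
    exact h
  · rintro ⟨j, rfl⟩
    refine ⟨j.val, j.isLt, ?_⟩
    have h1 := hR.2 (u, j)
    rw [← ix_div, ← h1]
    rfl

theorem Graph_adj {n d : ℕ} {l : List ℕ} {π : HE n d → HE n d} (hR : RepP l π) (hM : Mt ∅ π)
    (u v : Fin n) : (gOf d n l).Adj u v ↔ ∃ j, (π (u, j)).1 = v := by
  have hne : ∀ c, π c ≠ c := fun c h => by simpa using (hM.alive c).2 h
  have hsy : ∀ u v : Fin n, (∃ j, (π (u, j)).1 = v) → ∃ j, (π (v, j)).1 = u := by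
    rintro u v ⟨j, rfl⟩
    exact ⟨(π (u, j)).2, by rw [Prod.mk.eta, hM.inv]⟩
  unfold gOf
  rw [SimpleGraph.fromRel_adj, Graph_lrel hR, Graph_lrel hR]
  constructor
  · rintro ⟨-, h | h⟩
    · exact h
    · exact hsy _ _ h
  · rintro ⟨j, rfl⟩
    exact ⟨(hM.loop (u, j) (hne _)).symm, Or.inl ⟨j, rfl⟩⟩

theorem Graph_inj {n d : ℕ} {π : HE n d → HE n d} (hM : Mt ∅ π) (u : Fin n) :
    Function.Injective fun j : Fin d => (π (u, j)).1 := by
  have hne : ∀ c, π c ≠ c := fun c h => by simpa using (hM.alive c).2 h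
  intro j j' h
  have := hM.multi (u, j) (u, j') (hne _) (hne _) rfl h
  exact (Prod.mk.inj this).2

open Classical in
theorem Graph_nb {n d : ℕ} {l : List ℕ} {π : HE n d → HE n d} (hR : RepP l π) (hM : Mt ∅ π)
    (u : Fin n) : (gOf d n l).neighborFinset u = univ.image fun j : Fin d => (π (u, j)).1 := by
  ext v
  simp [Graph_adj hR hM]

open Classical in
theorem gOf_good {n d : ℕ} {l : List ℕ} {π : HE n d → HE n d} (hR : RepP l π) (hM : Mt ∅ π)
    {u : ℝ} (hu : ∀ s : ℝ, s = 1 ∨ s = -1 → ∀ f : Fin n → ℝ, ∑ v, f v = 0 →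
      s * ∑ c, f c.1 * f (π c).1 ≤ u * ∑ v, f v ^ 2) :
    (gOf d n l).IsRegularOfDegree d ∧ ∀ (lam : ℝ) (f : Fin n → ℝ), f ≠ 0 → ∑ v, f v = 0 →
      (gOf d n l).adjMatrix ℝ *ᵥ f = lam • f → |lam| ≤ u := by
  refine ⟨fun v => ?_, fun lam f hf hs he => ?_⟩
  · rw [← SimpleGraph.card_neighborFinset_eq_degree, Graph_nb hR hM,
      card_image_of_injective _ (Graph_inj hM v)]
    simp
  · have h1 : ∀ v, ∑ j : Fin d, f (π (v, j)).1 = lam * f v := by
      intro v
      have := congrFun he v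
      rw [SimpleGraph.adjMatrix_mulVec_apply, Graph_nb hR hM,
        sum_image fun a _ b _ h => Graph_inj hM v h] at this
      simpa using this
    have h2 : ∑ c : HE n d, f c.1 * f (π c).1 = lam * ∑ v, f v ^ 2 := by
      rw [Fintype.sum_prod_type, mul_sum]
      refine sum_congr rfl fun v _ => ?_
      simp only
      rw [← mul_sum, h1]
      ring
    have h3 : 0 < ∑ v, f v ^ 2 := by
      obtain ⟨v, hv⟩ := Function.ne_iff.1 hf
      exact sum_pos' (fun _ _ => sq_nonneg _) ⟨v, mem_univ _, sq_pos_of_ne_zero hv⟩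
    have h4 := hu 1 (Or.inl rfl) f hs
    have h5 := hu (-1) (Or.inr rfl) f hs
    rw [h2] at h4 h5
    rw [abs_le]
    constructor
    · have : (-lam) * ∑ v, f v ^ 2 ≤ u * ∑ v, f v ^ 2 := by linarith
      have := le_of_mul_le_mul_right this h3
      linarith
    · have : lam * ∑ v, f v ^ 2 ≤ u * ∑ v, f v ^ 2 := by linarith
      exact le_of_mul_le_mul_right this h3

end Vale.Agent.P049
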