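import Vale.Agent.P049.Run
import Vale.Agent.P049.Bound
import Vale.Agent.P049.Comp
import Vale.Agent.P049.Graph
import Vale.Agent.P049.AlgPT2
import Vale.Agent.P049.TM

/-! P049: assembly. -/

namespace Vale.Agent.P049

open Finset Matrix Vale.Agent.Lib.H23

theorem int_stats {ι : Type} [Fintype ι] [DecidableEq ι] {B : Matrix ι ι ℚ} {C : ℚ}
    (h : ∀ c e, ∃ z : ℤ, C * B c e = z) :
    (∃ z : ℤ, C ^ 2 * sT B = z) ∧ ∃ z : ℤ, C ^ 3 * sM3 B = z := by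
  choose Z hZ using h
  constructor
  · refine ⟨∑ i, ∑ j, Z i j * Z j i, ?_⟩
    simp only [sT, Matrix.trace, Matrix.diag, Matrix.mul_apply, Finset.mul_sum]
    push_cast
    refine Finset.sum_congr rfl fun i _ => Finset.sum_congr rfl fun j _ => ?_
    rw [← hZ, ← hZ]; ring
  · refine ⟨∑ i, ∑ k, ∑ j, Z i j * Z j k * Z k i, ?_⟩
    simp only [sM3, Matrix.trace, Matrix.diag, Matrix.mul_apply, Finset.mul_sum, Finset.sum_mul]
    push_cast
    refine Finset.sum_congr rfl fun i _ => Finset.sum_congr rfl fun k _ =>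
      Finset.sum_congr rfl fun j _ => ?_
    rw [← hZ, ← hZ, ← hZ]; ring

theorem pow_lt_two_pow' (n k : ℕ) (hk : 0 < k) : n ^ k < 2 ^ (k * n) := by
  rw [mul_comm, pow_mul]
  exact Nat.pow_lt_pow_left Nat.lt_two_pow_self hk.ne'

theorem num_facts {n d c0 Q : ℕ} (hn : 100 ≤ n) (hd : 0 < d) (hdn : d ≤ n) (hc3 : c0 ≤ n ^ 3)
    (hQ : Q ≤ n ^ 2) : n ≤ n * d ∧ n * d ≤ n ^ 2 ∧
    (∀ j ≤ n ^ 2, c0 * (c0 ^ 2 * (2 + 3 * Q)) ^ j < 2 ^ (12 * n ^ 3)) ∧
    Q + 1 < 2 ^ (12 * n ^ 3) ∧ 1000 * n ^ 7 ≤ (n + 2) ^ 9 ∧ (n * d + 1) ^ 2 ≤ 4 * n ^ 4 := by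
  have hnd : n * d ≤ n ^ 2 := by nlinarith
  have f1 : n ^ 3 = n * n ^ 2 := by ring
  have f2 : 1 ≤ n ^ 2 := Nat.one_le_pow _ _ (by omega)
  have hG9 : c0 ^ 2 * (2 + 3 * Q) ≤ 2 ^ (9 * n) := by
    have e1 : 2 + 3 * Q ≤ n ^ 3 := by nlinarith
    calc _ ≤ (n ^ 3) ^ 2 * n ^ 3 := Nat.mul_le_mul (Nat.pow_le_pow_left hc3 _) e1
      _ = n ^ 9 := by ring
      _ ≤ _ := (pow_lt_two_pow' n 9 (by norm_num)).le
  refine ⟨by nlinarith, hnd, fun j hj => ?_, ?_, ?_, ?_⟩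
  · have e1 : c0 < 2 ^ (3 * n) := lt_of_le_of_lt hc3 (pow_lt_two_pow' n 3 (by norm_num))
    have e2 : (c0 ^ 2 * (2 + 3 * Q)) ^ j ≤ 2 ^ (9 * n * j) := by
      rw [pow_mul]; exact Nat.pow_le_pow_left hG9 _
    have e3 : 3 * n + 9 * n * j ≤ 12 * n ^ 3 := by nlinarith
    calc _ ≤ c0 * 2 ^ (9 * n * j) := Nat.mul_le_mul_left _ e2
      _ < 2 ^ (3 * n) * 2 ^ (9 * n * j) := Nat.mul_lt_mul_of_pos_right e1 (by positivity)
      _ ≤ _ := by rw [← pow_add]; exact Nat.pow_le_pow_right (by norm_num) e3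
  · exact lt_trans (by nlinarith) Nat.lt_two_pow_self
  · calc 1000 * n ^ 7 ≤ n ^ 2 * n ^ 7 := Nat.mul_le_mul_right _ (by nlinarith)
      _ = n ^ 9 := by ring
      _ ≤ _ := Nat.pow_le_pow_left (by omega) _
  · calc (n * d + 1) ^ 2 ≤ (2 * n ^ 2) ^ 2 := Nat.pow_le_pow_left (by nlinarith) _
      _ = 4 * n ^ 4 := by ring

theorem gl_sz {n d q : ℕ} {m : ℝ} (hn : 100 ≤ n) (hd : 0 < d) (hdn : d ≤ n) (hq : 0 < q)
    (hqn : q ^ 6000 ≤ n) (hG : Glob q (par_x ℝ n d q) (par_mu ℝ n d q) m) :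
    sz ((List.range (n * d), q, par_x ℚ n d q, par_mu ℚ n d q) : Gl) ≤ 30 * n ^ 4 := by
  set c0 : ℕ := (q ^ 1902) ^ 2 * (n * d) with hc0
  have hc : 0 < c0 := by positivity
  have hc3 : c0 ≤ n ^ 3 := by
    have h1 : (q ^ 1902) ^ 2 ≤ n := by
      rw [← pow_mul]; exact (Nat.pow_le_pow_right hq (by norm_num)).trans hqn
    calc c0 ≤ n * (n * n) := Nat.mul_le_mul h1 (Nat.mul_le_mul_left _ hdn)
      _ = n ^ 3 := by ring
  have hc9 : c0 ^ 3 < 2 ^ (9 * n) := by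
    calc c0 ^ 3 ≤ (n ^ 3) ^ 3 := Nat.pow_le_pow_left hc3 _
      _ = n ^ 9 := by ring
      _ < _ := pow_lt_two_pow' n 9 (by norm_num)
  have hc9' : ((c0 : ℤ) ^ 3) < 2 ^ (9 * n) := by exact_mod_cast hc9
  have hq1 : (q : ℝ) ^ 6001 < 2 ^ (9 * n) := by
    have h1 : q ^ 6001 ≤ n ^ 9 := by
      calc q ^ 6001 ≤ (q ^ 6000) ^ 9 := by
            rw [← pow_mul]; exact Nat.pow_le_pow_right hq (by norm_num)
        _ ≤ n ^ 9 := Nat.pow_le_pow_left hqn _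
    have h2 := lt_of_le_of_lt h1 (pow_lt_two_pow' n 9 (by norm_num))
    exact_mod_cast h2
  have hqR : (1 : ℝ) ≤ q := by exact_mod_cast hq
  obtain ⟨⟨z1, h1⟩, z2, h2⟩ := int_stats (B0_int (n := n) (by omega) hd hq (s := 1) (Or.inl rfl))
  have ex : sz (par_x ℚ n d q) ≤ 12 * (9 * n) + 20 := by
    refine sz_rat_le (C := (c0 : ℤ) ^ 3) (by positivity) ⟨c0 ^ 3 * (n * d + 1) - c0 * z1, ?_⟩
      hc9' ?_
    · rw [← hc0] at h1
      push_cast
      rw [← h1, par_x]; ring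
    · have h3 : ((|par_x ℚ n d q| : ℚ) : ℝ) < ((2 ^ (9 * n) : ℚ) : ℝ) := by
        push_cast
        rw [par_x_cast, abs_of_nonneg (le_trans (by positivity) hG.x_lo)]
        exact lt_of_le_of_lt (hG.x_hi.trans (pow_le_pow_right₀ hqR (by norm_num))) hq1
      exact_mod_cast h3
  have em : sz (par_mu ℚ n d q) ≤ 12 * (9 * n) + 20 := by
    refine sz_rat_le (C := (c0 : ℤ) ^ 3) (by positivity) ⟨z2 - c0 ^ 3, ?_⟩ hc9' ?_
    · rw [← hc0] at h2
      push_cast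
      rw [← h2, par_mu]; ring
    · have h3 : ((|par_mu ℚ n d q| : ℚ) : ℝ) < ((2 ^ (9 * n) : ℚ) : ℝ) := by
        push_cast
        rw [par_mu_cast, abs_of_nonneg (le_trans (by positivity) hG.mu_lo)]
        exact lt_of_le_of_lt hG.mu_hi hq1
      exact_mod_cast h3
  have e1 : sz (List.range (n * d)) ≤ 5 * (n * d + 1) ^ 2 :=
    sz_listNat_le (by simp) fun i hi => (List.mem_range.1 hi).le
  have e2 : sz q ≤ 4 * n + 1 := by
    refine sz_nat_le (lt_of_le_of_lt ?_ Nat.lt_two_pow_self)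
    exact (Nat.le_self_pow (by norm_num) q).trans hqn
  have e3 : n * d + 1 ≤ 2 * n ^ 2 := by nlinarith
  have e4 : (n * d + 1) ^ 2 ≤ (2 * n ^ 2) ^ 2 := Nat.pow_le_pow_left e3 _
  have e5 : n * 100 ^ 3 ≤ n ^ 4 := by
    rw [pow_succ' n 3]; exact Nat.mul_le_mul_left _ (Nat.pow_le_pow_left hn _)
  simp only [sz_pair]
  nlinarith

theorem good_start {n d q : ℕ} {G : ℕ} (hn : 0 < n) (hd : 0 < d) (hq : 0 < q) {u : ℝ}
    (hG : Glob q (par_x ℝ n d q) (par_mu ℝ n d q) (par_m ℝ d q)) (hγ : 0 < par_g ℝ d q)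
    (hu : 1 - par_m ℝ d q ^ 2 ≤ par_g ℝ d q * (u - par_m ℝ d q * d))
    (hp : pot q (par_x ℝ n d q) (par_mu ℝ n d q) (n * d)
      (B0 n d 1 (par_g ℝ d q) (par_m ℝ d q)) (B0 n d (-1) (par_g ℝ d q) (par_m ℝ d q)) ≤ 1 / 4) :
    Good n d q (par_x ℚ n d q) (par_mu ℚ n d q) u (par_m ℝ d q) ((q ^ 1902) ^ 2 * (n * d)) G 0
      (n * d, lB0 d (List.range (n * d)) 1 (par_g ℚ d q) (par_m ℚ d q),
        lB0 d (List.range (n * d)) (-1) (par_g ℚ d q) (par_m ℚ d q), List.range (n * d)) := by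
  have side : ∀ s : ℚ, s = 1 ∨ s = -1 →
      Side u (par_m ℝ d q) ((q ^ 1902) ^ 2 * (n * d)) G 0 s (univ : Finset (HE n d)) id
        (lB0 d (List.range (n * d)) s (par_g ℚ d q) (par_m ℚ d q)) := by
    intro s hs
    have hsR : (s : ℝ) = 1 ∨ (s : ℝ) = -1 := by rcases hs with rfl | rfl <;> simp
    refine ⟨shape_tab _ _, ?_, ?_, 1, one_pos, by simp, ?_⟩
    · rw [toM_lB0, toR_B0]; exact str_init hn hd _ _ _
    · rw [toM_lB0, toR_B0, par_g_cast, par_m_cast]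
      exact binv_init hn hd hsR hG.m_lo hG.m_hi hγ hu
    · rw [toM_lB0]; exact iinv_init (B0_int hn hd hq hs)
  refine ⟨univ, id, repP_id, mt_init, by simp, by simp, side 1 (Or.inl rfl),
    side (-1) (Or.inr rfl), ?_⟩
  simp only [toM_lB0, toR_B0, par_g_cast, par_m_cast, par_x_cast, par_mu_cast, Rat.cast_one,
    Rat.cast_neg, range_zero, sum_empty, add_zero]
  exact hp

theorem main_good (d : ℕ) (hd : 3 ≤ d) : ∃ n0 : ℕ, ∀ w : List Unit, n0 ≤ w.length →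
    Even (d * w.length) → ∃ π : HE w.length d → HE w.length d, RepP (piFin d 9 w) π ∧ Mt ∅ π ∧
      ∀ s : ℝ, s = 1 ∨ s = -1 → ∀ f : Fin w.length → ℝ, ∑ v, f v = 0 →
        s * ∑ c, f c.1 * f (π c).1 ≤ 2 * √((d : ℝ) - 1) * ∑ v, f v ^ 2 := by
  obtain ⟨q1, h1⟩ := par_ok d hd
  obtain ⟨q2, h2⟩ := pot_step
  obtain ⟨q3, h3⟩ := incr_sum
  obtain ⟨q4, h4⟩ := pot_final
  obtain ⟨q5, h5⟩ := pot_bound
  refine ⟨(q1 + q2 + q3 + q4 + q5 + 10 * d * d + 100) ^ 6000, fun w hw hev => ?_⟩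
  obtain ⟨hqn, hnq⟩ := lq_spec w
  set n := w.length with hnw
  set q := lq w with hqw
  have hq0 : q1 + q2 + q3 + q4 + q5 + 10 * d * d + 100 ≤ q :=
    Nat.lt_succ_iff.1 (lt_of_pow_lt_pow_left₀ 6000 (Nat.zero_le _) (lt_of_le_of_lt hw hnq))
  have hq : 0 < q := by omega
  have hqle : q ≤ n := (Nat.le_self_pow (by norm_num) q).trans hqn
  have hdd : d ≤ d * d := Nat.le_mul_self d
  have hdd' : 10 * d * d = 10 * (d * d) := by ring
  have hn : 100 ≤ n := by omega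
  have hdn : d ≤ n := by omega
  have hd0 : 0 < d := by omega
  obtain ⟨hG, hN, hγ, hu, hp⟩ := h1 q (by omega) n hqn hnq
  have hGq : Glob q ((par_x ℚ n d q : ℚ) : ℝ) ((par_mu ℚ n d q : ℚ) : ℝ) (par_m ℝ d q) := by
    rw [par_x_cast, par_mu_cast]; exact hG
  have hP : PotOK q ((par_x ℚ n d q : ℚ) : ℝ) ((par_mu ℚ n d q : ℚ) : ℝ) (par_m ℝ d q) :=
    ⟨h2 q (by omega) _ _ _ hGq, h3 q (by omega), h5 q (by omega) _ _ _ hGq⟩
  set c0 : ℕ := (q ^ 1902) ^ 2 * (n * d) with hc0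
  set G : ℕ := c0 ^ 2 * (2 + 3 * q ^ 6003) with hGdef
  have hc : 0 < c0 := Nat.mul_pos (pow_pos (pow_pos hq _) _) (Nat.mul_pos (by omega) hd0)
  have hGR : (c0 : ℝ) ^ 2 * (2 + 3 * (q : ℝ) ^ 6003) ≤ G := by
    have : ∀ a b : ℕ, (a : ℝ) ^ 2 * (2 + 3 * (b : ℝ)) ≤ ((a ^ 2 * (2 + 3 * b) : ℕ) : ℝ) :=
      fun a b => le_of_eq (by push_cast; rfl)
    have h := this c0 (q ^ 6003)
    rwa [Nat.cast_pow] at h
  have h0 := good_start (G := G) (by omega) hd0 hq hG hγ hu hp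
  rw [← hc0] at h0
  have hst : start d w = ((List.range (n * d), q, par_x ℚ n d q, par_mu ℚ n d q),
      (n * d, lB0 d (List.range (n * d)) 1 (par_g ℚ d q) (par_m ℚ d q),
        lB0 d (List.range (n * d)) (-1) (par_g ℚ d q) (par_m ℚ d q), List.range (n * d))) := by
    simp only [start, lgl_eq, lBp, lBm, lg_eq, lm_eq, lr]; rfl
  have hkq : q ≤ kEnd q := Nat.le_self_pow (by norm_num) q
  have hc3 : c0 ≤ n ^ 3 := by
    have h1 : (q ^ 1902) ^ 2 ≤ n := by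
      rw [← pow_mul]; exact (Nat.pow_le_pow_right hq (by norm_num)).trans hqn
    calc c0 ≤ n * (n * n) := Nat.mul_le_mul h1 (Nat.mul_le_mul_left _ hdn)
      _ = n ^ 3 := by ring
  have hq2 : q ^ 6003 ≤ n ^ 2 := by
    calc q ^ 6003 ≤ (q ^ 6000) ^ 2 := by
          rw [← pow_mul]; exact Nat.pow_le_pow_right hq (by norm_num)
      _ ≤ n ^ 2 := Nat.pow_le_pow_left hqn _
  obtain ⟨hnd0, hnd, hb1, hb2', hbig, hsq⟩ := num_facts hn hd0 hdn hc3 hq2
  rw [← hGdef] at hb1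
  have hb2 : (q : ℝ) ^ 6003 + 1 < 2 ^ (12 * n ^ 3) := by exact_mod_cast hb2'
  have hkE : kEnd q ≤ n * d :=
    le_trans (le_trans (Nat.pow_le_pow_right hq (by norm_num)) hqn) hnd0
  have hlen : (pad 9 w).length = (n + 2) ^ 9 := by simp [pad, hnw]
  have hn47 : n ^ 4 ≤ n ^ 7 := Nat.pow_le_pow_right (by omega) (by norm_num)
  have hn27 : n ^ 2 ≤ n ^ 7 := Nat.pow_le_pow_right (by omega) (by norm_num)
  have hn07 : 1 ≤ n ^ 7 := Nat.one_le_pow _ _ (by omega)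
  set J := (n * d - kEnd q) / 2 with hJ
  have hit := fun j hj => good_iter hP hG.m_lo hG.m_hi hN (by omega) hc hGR h0 j hj
  obtain ⟨t, e, ht⟩ := hit J (by omega)
  have hmain : padIter (mainStep d) (pad 9 w) (start d w) =
      ((List.range (n * d), q, par_x ℚ n d q, par_mu ℚ n d q), t) := by
    rw [hst, ← e]
    refine padIter_eq (by rw [hlen]; omega) (fun i hi => ?_) ?_
    · obtain ⟨t', e', ht'⟩ := hit i (by omega)
      have hk : kEnd q ≤ t'.1 := by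
        obtain ⟨_, _, _, _, _, h1, _⟩ := ht'
        omega
      have s1 := good_sz hP hG.m_lo hG.m_hi hN hc ht' hk (hb1 i (by omega)) hb2
      have s2 := gl_sz hn hd0 hdn hq hqn hG
      have s3 : n * d * (n * d * (12 * (12 * n ^ 3) + 21) + 2) ≤
          n ^ 2 * (n ^ 2 * (165 * n ^ 3) + 2) := by
        have : 1 ≤ n ^ 3 := Nat.one_le_pow _ _ (by omega)
        gcongr
        omega
      have s4 : n ^ 2 * (n ^ 2 * (165 * n ^ 3) + 2) = 165 * n ^ 7 + 2 * n ^ 2 := by ring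
      rw [e', sz_pair, hlen]
      omega
    · rw [e]
      have hk : t.1 < kEnd q + 2 := by
        obtain ⟨_, _, _, _, _, h1, _⟩ := ht
        omega
      have : ltb t.1 (kEnd q + 2) = true := by simpa [ltb] using hk
      simp only [mainStep, this, cond_true]
  obtain ⟨k, A, B, l⟩ := t
  obtain ⟨H, π, hR, hM, hcard, hj, hA, hB, hpt⟩ := ht
  simp only at hR hcard hj hA hB hpt
  have hp1 := good_pot hP hN hj hpt
  have iA : Inv H 1 (par_m ℝ d q) (toR (toM n d A)) := by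
    have := inv_of_binv (Or.inl (by simp)) hG.m_lo hG.m_hi hA.str hA.binv
    simpa using this
  have iB : Inv H (-1) (par_m ℝ d q) (toR (toM n d B)) := by
    have := inv_of_binv (Or.inr (by simp)) hG.m_lo hG.m_hi hB.str hB.binv
    simpa using this
  obtain ⟨hTA, hTB⟩ := h4 q (by omega) _ _ _ hGq _ H _ _ (by omega) (by omega) iA iB
    (by rw [hcard]; exact hp1)
  have hevH : Even H.card := by
    rw [mul_comm] at hev
    obtain ⟨r, hr⟩ := hev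
    exact ⟨r - J, by omega⟩
  obtain ⟨π', hR', hM', hag⟩ := comp_run hR hM hevH (by omega) (pad 9 w) (by rw [hlen]; omega)
  have hne : H.Nonempty := card_pos.1 (by omega)
  refine ⟨π', ?_, hM', fun s hs f hf => ?_⟩
  · simp only [piFin, piMain, hmain, lr]; exact hR'
  · rcases hs with rfl | rfl
    · have := binv_final (Or.inl (by simp)) hG.m_lo hG.m_hi hM hA.str hA.binv hTA hne hM' hag f hf
      simpa using this
    · have := binv_final (Or.inr (by simp)) hG.m_lo hG.m_hi hM hB.str hB.binv hTB hne hM' hag f hf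
      simpa using this

open Classical in
theorem main_thm (d : ℕ) (hd : 3 ≤ d) : ∃ G : (n : ℕ) → SimpleGraph (Fin n),
    (∃ M : Turing.TM2ComputableInPolyTime (fun n : ℕ => List.replicate n true)
      (fun s : List Bool => s) (fun n => code (G n)), ∀ k, Finite (M.tm.Γ k)) ∧
    ∃ n0 : ℕ, ∀ n ≥ n0, Even (d * n) → (G n).IsRegularOfDegree d ∧
      ∀ (lam : ℝ) (v : Fin n → ℝ), v ≠ 0 → ∑ i, v i = 0 →
        (G n).adjMatrix ℝ *ᵥ v = lam • v → |lam| ≤ 2 * √((d : ℝ) - 1) := by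
  refine ⟨fun n => gOf d n (piFin d 9 (List.replicate n ())), ?_, ?_⟩
  · refine tm_of_pt (pt_alg d 9 pt_val) fun n => ?_
    have := code_gOf d (List.replicate n ()) (piFin d 9 (List.replicate n ()))
    rw [alg, ← this, List.length_replicate]
  · obtain ⟨n0, h⟩ := main_good d hd
    refine ⟨n0, fun n hn hev => ?_⟩
    have key : ∀ w : List Unit, w.length = n → (gOf d n (piFin d 9 w)).IsRegularOfDegree d ∧
        ∀ (lam : ℝ) (v : Fin n → ℝ), v ≠ 0 → ∑ i, v i = 0 →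
          (gOf d n (piFin d 9 w)).adjMatrix ℝ *ᵥ v = lam • v → |lam| ≤ 2 * √((d : ℝ) - 1) := by
      rintro w rfl
      obtain ⟨π, hR, hM, hu⟩ := h w hn hev
      exact gOf_good hR hM hu
    exact key _ (List.length_replicate ..)

end Vale.Agent.P049
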