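import Vale.Agent.P049.Alg
import Mathlib.Tactic

/-! P049: the list routines compute the matrix operations. -/

namespace Vale.Agent.P049

open Finset Matrix Vale.Agent.Lib.H23

variable {n d : ℕ}

theorem ix_lt (c : HE n d) : ix c < n * d := by
  have h1 := c.1.isLt
  have h2 := c.2.isLt
  unfold ix
  calc c.2.val + d * c.1.val < d + d * c.1.val := by omega
    _ = d * (c.1.val + 1) := by ring
    _ ≤ d * n := Nat.mul_le_mul_left _ h1
    _ = n * d := Nat.mul_comm _ _
theorem ix_inj {c e : HE n d} (h : ix c = ix e) : c = e := by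
  have h1 := c.2.isLt
  have h2 := e.2.isLt
  have hd : 0 < d := by omega
  unfold ix at h
  have e1 : c.2.val = e.2.val := by
    have := congrArg (· % d) h
    simpa [Nat.add_mul_mod_self_left, Nat.mod_eq_of_lt h1, Nat.mod_eq_of_lt h2] using this
  have e2 : c.1.val = e.1.val := by
    rw [e1] at h
    exact Nat.eq_of_mul_eq_mul_left hd (Nat.add_left_cancel h)
  exact Prod.ext (Fin.ext e2) (Fin.ext e1)
theorem ix_surj {i : ℕ} (h : i < n * d) : ∃ c : HE n d, ix c = i := by
  have hd : 0 < d := by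
    rcases Nat.eq_zero_or_pos d with h0 | h0
    · rw [h0] at h; simp at h
    · exact h0
  refine ⟨(⟨i / d, (Nat.div_lt_iff_lt_mul hd).2 h⟩, ⟨i % d, Nat.mod_lt _ hd⟩), ?_⟩
  exact Nat.mod_add_div i d
theorem ix_div (c : HE n d) : ix c / d = c.1.val := by
  have h2 := c.2.isLt
  unfold ix
  rw [Nat.add_mul_div_left _ _ (by omega : 0 < d), Nat.div_eq_of_lt h2, Nat.zero_add]
theorem spec_ix_eq {c e : HE n d} : ix c = ix e ↔ c = e := ⟨ix_inj, fun h => by rw [h]⟩
theorem spec_ex_range {P : ℕ → Prop} :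
    (∃ i, i ∈ List.range (n * d) ∧ P i) ↔ ∃ c : HE n d, P (ix c) := by
  constructor
  · rintro ⟨i, hi, h⟩
    obtain ⟨c, rfl⟩ := ix_surj (List.mem_range.1 hi)
    exact ⟨c, h⟩
  · rintro ⟨c, h⟩
    exact ⟨ix c, List.mem_range.2 (ix_lt c), h⟩
theorem spec_all_range {P : ℕ → Prop} :
    (∀ i, i ∈ List.range (n * d) → P i) ↔ ∀ c : HE n d, P (ix c) := by
  constructor
  · intro h c
    exact h _ (List.mem_range.2 (ix_lt c))
  · intro h i hi
    obtain ⟨c, rfl⟩ := ix_surj (List.mem_range.1 hi)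
    exact h c
theorem gt_tab {N i j : ℕ} (f : ℕ → ℕ → ℚ) (hi : i < N) (hj : j < N) :
    gt (tab (List.range N) f) i j = f i j := by
  simp [gt, tab, List.getD_eq_getElem?_getD, hi, hj]
theorem shape_tab (N : ℕ) (f : ℕ → ℕ → ℚ) : Shape N (tab (List.range N) f) := by
  refine ⟨by simp [tab], fun l hl => ?_⟩
  simp only [tab, List.mem_map] at hl
  obtain ⟨i, _, rfl⟩ := hl
  simp
theorem lsum_ix (f : ℕ → ℚ) : lsum (List.range (n * d)) f = ∑ c : HE n d, f (ix c) := by
  have h1 : lsum (List.range (n * d)) f = ∑ i ∈ Finset.range (n * d), f i := by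
    rw [lsum, ← List.toFinset_range, List.sum_toFinset _ List.nodup_range]
  rw [h1]
  symm
  refine Finset.sum_bij (fun c _ => ix c) (fun c _ => Finset.mem_range.2 (ix_lt c))
    (fun c _ e _ h => ix_inj h) (fun i hi => ?_) (fun _ _ => rfl)
  obtain ⟨c, hc⟩ := ix_surj (Finset.mem_range.1 hi)
  exact ⟨c, Finset.mem_univ _, hc⟩
theorem toM_lmul (A B : LM) :
    toM n d (lmul (List.range (n * d)) A B) = toM n d A * toM n d B := by
  ext c e
  rw [Matrix.mul_apply]
  simp only [toM, lmul]
  rw [gt_tab _ (ix_lt c) (ix_lt e), lsum_ix]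
theorem ltr_eq (A : LM) : ltr (List.range (n * d)) A = (toM n d A).trace := by
  rw [ltr, lsum_ix]
  rfl
theorem lrho_eq (s : ℚ) (B : LM) (a b : HE n d) :
    lrho s B (ix a) (ix b) = rho s (toM n d B) a b := by
  rfl
theorem toM_lstep (s : ℚ) (B : LM) (a b : HE n d) :
    toM n d (lstep (List.range (n * d)) s B (ix a) (ix b)) = step s (toM n d B) a b := by
  ext c e
  simp only [toM, lstep]
  rw [gt_tab _ (ix_lt c) (ix_lt e)]
  simp only [step, spec_ix_eq]
  rfl
theorem toM_lB0 (s γ m : ℚ) : toM n d (lB0 d (List.range (n * d)) s γ m) = B0 n d s γ m := by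
  ext c e
  simp only [toM, lB0]
  rw [gt_tab _ (ix_lt c) (ix_lt e)]
  simp only [B0, spec_ix_eq, ix_div, Fin.val_inj, List.length_range, Nat.cast_mul]
theorem repP_id : RepP (List.range (n * d)) (id : HE n d → HE n d) := by
  refine ⟨by simp, fun c => ?_⟩
  simp [pg, List.getD_eq_getElem?_getD, ix_lt c]
theorem repP_link {l : List ℕ} {π : HE n d → HE n d} (h : RepP l π) (a b : HE n d) :
    RepP (llink (List.range (n * d)) l (ix a) (ix b)) (link π a b) := by
  refine ⟨by simp [llink], fun c => ?_⟩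
  have : pg (llink (List.range (n * d)) l (ix a) (ix b)) (ix c) =
      if ix c = ix a then ix b else if ix c = ix b then ix a else pg l (ix c) := by
    simp [pg, llink, List.getD_eq_getElem?_getD, ix_lt c]
  rw [this, h.2]
  simp only [spec_ix_eq, link]
  split_ifs <;> rfl
theorem repP_mem {l : List ℕ} {π : HE n d → HE n d} (h : RepP l π) : ∀ i ∈ l, i < n * d := by
  intro i hi
  obtain ⟨j, hj, rfl⟩ := List.getElem_of_mem hi
  obtain ⟨c, hc⟩ := ix_surj (n := n) (d := d) (h.1 ▸ hj)
  have := h.2 c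
  rw [hc, pg, List.getD_eq_getElem _ _ hj] at this
  rw [this]
  exact ix_lt _
theorem lbad_iff {l : List ℕ} {π : HE n d → HE n d} (h : RepP l π) (a b : HE n d) :
    lbad d (List.range (n * d)) l (ix a) (ix b) = true ↔ bad π a b := by
  simp only [lbad, bad, Bool.or_eq_true, List.any_eq_true, spec_ex_range, h.2, ix_div, eqb_eq,
    decide_eq_true_eq, Bool.and_eq_true, Bool.not_eq_true', decide_eq_false_iff_not, spec_ix_eq,
    Fin.val_inj, ne_eq]
theorem lok_iff {l : List ℕ} {π : HE n d → HE n d} (h : RepP l π) :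
    lok d (List.range (n * d)) l = true ↔ (∀ c, π c ≠ c → (π c).1 ≠ c.1) ∧
      ∀ c c', π c ≠ c → π c' ≠ c' → c.1 = c'.1 → (π c).1 = (π c').1 → c = c' := by
  simp only [lok, Bool.or_eq_true, List.all_eq_true, spec_all_range, h.2, ix_div, eqb_eq,
    decide_eq_true_eq, Bool.and_eq_true, Bool.not_eq_true', decide_eq_false_iff_not, spec_ix_eq,
    Fin.val_inj, ne_eq, Bool.and_eq_false_iff]
  constructor
  · intro H
    refine ⟨fun c hc => ((H c).resolve_left hc).1, fun c c' hc hc' h1 h2 => ?_⟩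
    rcases (((H c).resolve_left hc).2 c').resolve_left hc' with (h3 | h3) | h3
    · exact absurd h1 h3
    · exact absurd h2 h3
    · exact h3
  · rintro ⟨H1, H2⟩ c
    by_cases hc : π c = c
    · exact Or.inl hc
    refine Or.inr ⟨H1 c hc, fun c' => ?_⟩
    by_cases hc' : π c' = c'
    · exact Or.inl hc'
    by_cases h1 : c.1 = c'.1
    · by_cases h2 : (π c).1 = (π c').1
      · exact Or.inr (Or.inr (H2 c c' hc hc' h1 h2))
      · exact Or.inr (Or.inl (Or.inr h2))
    · exact Or.inr (Or.inl (Or.inl h1))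
theorem mem_pairs {N : ℕ} (p : ℕ × ℕ) : p ∈ pairs (List.range N) ↔ p.1 < N ∧ p.2 < N := by
  simp only [pairs, List.mem_flatMap, List.mem_map, List.mem_range]
  constructor
  · rintro ⟨a, ha, b, hb, rfl⟩
    exact ⟨ha, hb⟩
  · rintro ⟨ha, hb⟩
    exact ⟨p.1, ha, p.2, hb, rfl⟩
theorem best_spec (hd : ℚ × Lo) (tl : List (ℚ × Lo)) :
    best hd tl ∈ hd :: tl ∧ ∀ c ∈ hd :: tl, (best hd tl).1 ≤ c.1 := by
  induction tl generalizing hd with
  | nil => simp [best]
  | cons c tl ih =>
    have e : best hd (c :: tl) = best (bif decide (c.1 < hd.1) then c else hd) tl := rfl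
    rw [e]
    by_cases h : c.1 < hd.1
    · simp only [h, decide_true, cond_true]
      obtain ⟨h1, h2⟩ := ih c
      refine ⟨List.mem_cons_of_mem _ h1, fun x hx => ?_⟩
      rcases List.mem_cons.1 hx with hx | hx
      · rw [hx]; exact (h2 c List.mem_cons_self).trans h.le
      · exact h2 x hx
    · simp only [h, decide_false, cond_false]
      obtain ⟨h1, h2⟩ := ih hd
      refine ⟨?_, fun x hx => ?_⟩
      · rcases List.mem_cons.1 h1 with h1 | h1
        · rw [h1]; exact List.mem_cons_self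
        · exact List.mem_cons_of_mem _ (List.mem_cons_of_mem _ h1)
      · rcases List.mem_cons.1 hx with hx | hx
        · rw [hx]; exact h2 hd List.mem_cons_self
        rcases List.mem_cons.1 hx with hx | hx
        · rw [hx]; exact (h2 hd List.mem_cons_self).trans (not_lt.1 h)
        · exact h2 x (List.mem_cons_of_mem _ hx)

theorem spec_count {p : ℕ → Bool} {k : ℕ} (h : ∀ i, p i = true ↔ i < k) (N : ℕ) :
    ((List.range N).filter p).length = min N k := by
  induction N with
  | zero => simp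
  | succ N ih =>
    rw [List.range_succ, List.filter_append, List.length_append, ih]
    by_cases hN : N < k
    · have := (h N).2 hN
      simp only [List.filter_cons, this, if_true, List.filter_nil, List.length_singleton]
      omega
    · have : p N = false := by
        cases hp : p N
        · rfl
        · exact absurd ((h N).1 hp) hN
      simp only [List.filter_cons, this, Bool.false_eq_true, if_false, List.filter_nil,
        List.length_nil]
      omega
theorem spec_root (N e : ℕ) (he : e ≠ 0) :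
    ((List.range N).filter fun i => !(ltb N ((i + 1) ^ e))).length ^ e ≤ N ∧
      N < (((List.range N).filter fun i => !(ltb N ((i + 1) ^ e))).length + 1) ^ e := by
  have hex : ∃ k, N < (k + 1) ^ e := ⟨N, lt_of_lt_of_le (Nat.lt_succ_self N) (Nat.le_self_pow he _)⟩
  have h1 : N < (Nat.find hex + 1) ^ e := Nat.find_spec hex
  have h2 : Nat.find hex ^ e ≤ N := by
    rcases h : Nat.find hex with _ | k
    · rw [zero_pow he]; exact Nat.zero_le _
    · exact not_lt.1 (Nat.find_min hex (by omega))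
  have h3 : Nat.find hex ≤ N := (Nat.le_self_pow he _).trans h2
  rw [spec_count (k := Nat.find hex), min_eq_right h3]
  · exact ⟨h2, h1⟩
  · intro i
    simp only [ltb_eq, Bool.not_eq_true', decide_eq_false_iff_not, not_lt]
    constructor
    · intro hi
      have := lt_of_pow_lt_pow_left₀ e (Nat.zero_le _) (lt_of_le_of_lt hi h1)
      omega
    · intro hi
      exact not_lt.1 (Nat.find_min hex hi)
theorem spec_pow_le {q N a b : ℕ} (ha : a ≠ 0) (hab : a ≤ b) (h : q ^ b ≤ N) : q ^ a ≤ N := by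
  rcases Nat.eq_zero_or_pos q with h0 | h0
  · rw [h0, zero_pow ha]; exact Nat.zero_le _
  · exact (Nat.pow_le_pow_right h0 hab).trans h
theorem lq_spec (w : List Unit) : lq w ^ 6000 ≤ w.length ∧ w.length < (lq w + 1) ^ 6000 := by
  exact spec_root w.length 6000 (by norm_num)
theorem lsqrt_eq (w : List Unit) {X : ℕ} (h : X ≤ w.length * w.length) :
    lsqrt w X = Nat.sqrt X := by
  unfold lsqrt
  rw [spec_count (k := Nat.sqrt X)]
  · exact min_eq_right ((Nat.sqrt_le_sqrt h).trans (Nat.sqrt_eq _).le)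
  · intro i
    simp only [ltb_eq, Bool.not_eq_true', decide_eq_false_iff_not, not_lt]
    rw [← Nat.le_sqrt]
    exact Nat.succ_le_iff
theorem lm_eq (d : ℕ) (w : List Unit) : lm d w = par_m ℚ d (lq w) := by
  have h1 : lq w ^ 1902 ≤ w.length := spec_pow_le (by norm_num) (by norm_num) (lq_spec w).1
  have h2 : (lq w ^ 1902) ^ 2 / (d - 1) ≤ w.length * w.length := by
    refine (Nat.div_le_self _ _).trans ?_
    rw [sq]
    exact Nat.mul_le_mul h1 h1
  rw [lm, par_m, lsqrt_eq w h2]
theorem lg_eq (d : ℕ) (w : List Unit) : lg d w = par_g ℚ d (lq w) := by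
  rw [lg, par_g, lm_eq]
theorem lgl_eq (d : ℕ) (w : List Unit) : lgl d w = (List.range (w.length * d), lq w,
    par_x ℚ w.length d (lq w), par_mu ℚ w.length d (lq w)) := by
  simp only [lgl, lr, lBp, ltr_eq, toM_lmul, toM_lB0, lg_eq, lm_eq, par_x, par_mu, sT, sM3,
    Nat.cast_mul]

/-! casts to the reals -/

variable {ι : Type} [Fintype ι] [DecidableEq ι]

theorem rho_cast (s : ℚ) (B : Matrix ι ι ℚ) (a b : ι) :
    ((rho s B a b : ℚ) : ℝ) = rho (s : ℝ) (toR B) a b := by
  simp [rho, toR]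
theorem toR_step (s : ℚ) (B : Matrix ι ι ℚ) (a b : ι) :
    toR (step s B a b) = step (s : ℝ) (toR B) a b := by
  ext c e
  simp only [toR, Matrix.map_apply, step]
  split_ifs
  · simp
  · rw [← toR, ← rho_cast]
    simp
theorem toR_B0 (s γ m : ℚ) : toR (B0 n d s γ m) = B0 n d (s : ℝ) (γ : ℝ) (m : ℝ) := by
  ext c e
  simp only [toR, Matrix.map_apply, B0]
  split_ifs <;> simp
theorem par_m_cast (d q : ℕ) : ((par_m ℚ d q : ℚ) : ℝ) = par_m ℝ d q := by
  simp [par_m]
theorem par_g_cast (d q : ℕ) : ((par_g ℚ d q : ℚ) : ℝ) = par_g ℝ d q := by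
  rw [par_g, par_g, ← par_m_cast]
  simp
theorem spec_toR_mul (A B : Matrix ι ι ℚ) : toR (A * B) = toR A * toR B := by
  ext c e
  simp [toR, Matrix.mul_apply]
omit [DecidableEq ι] in
theorem spec_toR_trace (A : Matrix ι ι ℚ) : (toR A).trace = ((A.trace : ℚ) : ℝ) := by
  simp [toR, Matrix.trace]
theorem par_x_cast (n d q : ℕ) : ((par_x ℚ n d q : ℚ) : ℝ) = par_x ℝ n d q := by
  rw [par_x, par_x, ← par_m_cast, ← par_g_cast]
  have := toR_B0 (n := n) (d := d) 1 (par_g ℚ d q) (par_m ℚ d q)
  rw [Rat.cast_one] at this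
  rw [← this, sT, sT, ← spec_toR_mul, spec_toR_trace]
  simp
theorem par_mu_cast (n d q : ℕ) : ((par_mu ℚ n d q : ℚ) : ℝ) = par_mu ℝ n d q := by
  rw [par_mu, par_mu, ← par_m_cast, ← par_g_cast]
  have := toR_B0 (n := n) (d := d) 1 (par_g ℚ d q) (par_m ℚ d q)
  rw [Rat.cast_one] at this
  rw [← this, sM3, sM3, ← spec_toR_mul, ← spec_toR_mul, spec_toR_trace]
  simp

end Vale.Agent.P049
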