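import Vale.Agent.P049.AlgPT1
import Vale.Agent.P049.Spec

/-! P049: the potential on lists: polynomial time, correctness, cast to the reals. -/

namespace Vale.Agent.P049

open Vale.Agent.Lib.H23 Vale.Agent.P338

section pt

variable {α : Type} [Enc α] {q k : α → ℕ} {x μ : α → ℚ}

theorem potL_le {β : Type} [Enc β] {a b : α → ℕ} {f g : α → β} (ha : PT a) (hb : PT b) (hf : PT f)
    (hg : PT g) : PT fun p => if a p ≤ b p then f p else g p :=
  pt_ite (b := fun p => !(ltb (b p) (a p))) (by fun_prop) (fun p => by simp) hf hg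

theorem potL_kOne (hq : PT q) : PT fun p => kOne (q p) := pt_npow hq _

theorem potL_kTwo (hq : PT q) : PT fun p => kTwo (q p) := pt_npow hq _

theorem potL_qp (hq : PT q) (c : ℕ) : PT fun p => ((q p : ℕ) : ℚ) ^ c := pt_qpow (pt_qcast hq) c

theorem potL_tau (hx : PT x) (hk : PT k) : PT fun p => tau (x p) (k p) :=
  pt_qdiv (pt_qcast hk) (pt_qadd (pt_qcast hk) hx)

theorem potL_uh (hq : PT q) (hk : PT k) : PT fun p => uh ℚ (q p) (k p) :=
  pt_qadd (potL_qp hq _) (pt_qmul (potL_qp hq _) (pt_qmin (PT.const _) (pt_qmax (PT.const _)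
    (pt_qdiv (pt_qsub (pt_qcast hk) (pt_qcast (potL_kOne hq))) (pt_qcast (potL_kOne hq))))))

theorem potL_nU (hq : PT q) (hx : PT x) (hk : PT k) : PT fun p => nU (q p) (x p) (k p) :=
  pt_qmul (pt_qpow (potL_uh hq hk) _) (potL_tau hx hk)

theorem potL_nD (hq : PT q) (hx : PT x) (hk : PT k) : PT fun p => nD (q p) (x p) (k p) :=
  pt_qdiv (pt_qmul (pt_qpow hx _) (pt_qpow (potL_tau hx hk) _)) (potL_qp hq _)

theorem potL_nW (hq : PT q) (hx : PT x) (hk : PT k) : PT fun p => nW (q p) (x p) (k p) :=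
  pt_qmul (pt_qmul (pt_qmul (potL_qp hq _) (pt_qcast hk)) (potL_tau hx hk))
    (pt_qpow (pt_qsub (PT.const _) (potL_tau hx hk)) _)

theorem potL_nV (hq : PT q) (hx : PT x) (hk : PT k) : PT fun p => nV (q p) (x p) (k p) :=
  pt_qmul (potL_qp hq _) (pt_qadd (potL_tau hx hk) (pt_qdiv (PT.const _) (pt_qcast hk)))

theorem potL_n4 (hq : PT q) (hk : PT k) : PT fun p => n4 ℚ (q p) (k p) :=
  pt_qdiv (potL_qp hq _) (pt_qcast hk)

theorem potL_nC (hq : PT q) (hμ : PT μ) (hk : PT k) : PT fun p => nC (q p) (μ p) (k p) :=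
  pt_qadd (pt_qmul (potL_qp hq _) (pt_qcast hk)) (pt_qdiv hμ (pt_qcast hq))

theorem potL_dev {T : α → ℚ} (hx : PT x) (hk : PT k) (hT : PT T) :
    PT fun p => dev (x p) (k p) (T p) :=
  pt_qsub (pt_qadd (pt_qmul (pt_qcast hk) (potL_tau hx hk)) (PT.const _)) hT

theorem potL_cen {T Y : α → ℚ} (hx : PT x) (hk : PT k) (hT : PT T) (hY : PT Y) :
    PT fun p => cen (x p) (k p) (T p) (Y p) :=
  pt_qadd (pt_qsub hY (pt_qmul (pt_qmul (PT.const _) (potL_tau hx hk)) hT))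
    (pt_qmul (pt_qcast hk) (pt_qpow (potL_tau hx hk) _))

theorem potL_term3 {M : α → ℚ} (hq : PT q) (hμ : PT μ) (hk : PT k) (hM : PT M) :
    PT fun p => term3 (q p) (μ p) (k p) (M p) :=
  potL_le (potL_kOne hq) hk
    (pt_qdiv (pt_qpow (pt_qsub hM hμ) _) (pt_qpow (pt_qdiv hμ (PT.const _)) _))
    (pt_qdiv (pt_qpow hM _) (pt_qpow (pt_qmul (PT.const _) hμ) _))

theorem potL_sidePot {U T M3 M4 Y V Chi : α → ℚ} (hq : PT q) (hx : PT x) (hμ : PT μ) (hk : PT k)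
    (hU : PT U) (hT : PT T) (h3 : PT M3) (h4 : PT M4) (hY : PT Y) (hV : PT V) (hC : PT Chi) :
    PT fun p => sidePot (q p) (x p) (μ p) (k p) (U p) (T p) (M3 p) (M4 p) (Y p) (V p) (Chi p) :=
  pt_qadd (pt_qadd (pt_qadd (pt_qadd (pt_qadd (pt_qdiv (pt_qpow hU _) (potL_nU hq hx hk))
    (pt_qdiv (pt_qpow (potL_dev hx hk hT) _) (potL_nD hq hx hk)))
    (pt_qdiv (potL_cen hx hk hT hY) (potL_nW hq hx hk))) (pt_qdiv hV (potL_nV hq hx hk)))
    (potL_le (potL_kTwo hq) hk (pt_qadd (pt_qdiv h4 (potL_n4 hq hk)) (potL_term3 hq hμ hk h3))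
      (PT.const _)))
    (potL_le (potL_kOne hq) hk (pt_qdiv (pt_qadd hC hT) (potL_nC hq hμ hk)) (PT.const _))

theorem potL_diag {r : α → List ℕ} {A : α → LM} (hr : PT r) (hA : PT A) :
    PT fun p => lsum (r p) fun c => gt (A p) c c ^ 2 :=
  apt1_lsum (f := fun p c => gt (A p) c c ^ 2) hr
    (pt_qpow (pt_gt (PT.comp hA PT.fst') PT.snd' PT.snd') 2)

theorem potL_lside {r : α → List ℕ} {B C : α → LM} (hq : PT q) (hx : PT x) (hμ : PT μ) (hk : PT k)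
    (hr : PT r) (hB : PT B) (hC : PT C) :
    PT fun p => lside (q p) (x p) (μ p) (k p) (r p) (B p) (C p) := by
  have h2 := pt_lmul hr hB hB
  exact potL_sidePot hq hx hμ hk (pt_ltr hr hB) (pt_ltr hr h2) (pt_ltr hr (pt_lmul hr h2 hB))
    (pt_ltr hr (pt_lmul hr h2 h2)) (potL_diag hr h2) (potL_diag hr hB)
    (pt_ltr hr (pt_lmul hr h2 hC))

end pt

theorem pt_val : PT fun p : Gl × Lo => val p.1 p.2 := by
  have hq : PT fun p : Gl × Lo => p.1.2.1 := by fun_prop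
  have hx : PT fun p : Gl × Lo => p.1.2.2.1 := by fun_prop
  have hμ : PT fun p : Gl × Lo => p.1.2.2.2 := by fun_prop
  have hk : PT fun p : Gl × Lo => p.2.1 := by fun_prop
  have hr : PT fun p : Gl × Lo => p.1.1 := by fun_prop
  have hB : PT fun p : Gl × Lo => p.2.2.1 := by fun_prop
  have hC : PT fun p : Gl × Lo => p.2.2.2.1 := by fun_prop
  exact pt_qadd (potL_lside hq hx hμ hk hr hB hC) (potL_lside hq hx hμ hk hr hC hB)

theorem potL_lside_eq {n d : ℕ} (q : ℕ) (x μ : ℚ) (k : ℕ) (A B : LM) :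
    lside q x μ k (List.range (n * d)) A B = side q x μ k (toM n d A) (toM n d B) := by
  have h1 : ∀ C : LM, (lsum (List.range (n * d)) fun c => gt C c c ^ 2) =
      ∑ c, (toM n d C c c) ^ 2 := fun C => lsum_ix _
  simp only [lside, side, sU, sT, sM3, sM4, sY, sV, sChi, ltr_eq, h1, toM_lmul]

theorem lpot_eq {n d : ℕ} (q : ℕ) (x μ : ℚ) (k : ℕ) (A B : LM) :
    lpot q x μ k (List.range (n * d)) A B = pot q x μ k (toM n d A) (toM n d B) := by
  rw [lpot, pot, potL_lside_eq, potL_lside_eq]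

theorem potL_tau_cast (x : ℚ) (k : ℕ) : ((tau x k : ℚ) : ℝ) = tau (x : ℝ) k := by
  simp only [tau]
  push_cast
  rfl

theorem potL_sidePot_cast (q : ℕ) (x μ : ℚ) (k : ℕ) (U T M3 M4 Y V Chi : ℚ) :
    ((sidePot q x μ k U T M3 M4 Y V Chi : ℚ) : ℝ) =
      sidePot q (x : ℝ) (μ : ℝ) k (U : ℝ) (T : ℝ) (M3 : ℝ) (M4 : ℝ) (Y : ℝ) (V : ℝ) (Chi : ℝ) := by
  simp only [sidePot, nU, nD, nW, nV, n4, nC, dev, cen, term3, uh, apply_ite (Rat.cast : ℚ → ℝ),
    Rat.cast_add, Rat.cast_sub, Rat.cast_mul, Rat.cast_div, Rat.cast_pow, Rat.cast_min,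
    Rat.cast_max, Rat.cast_natCast, Rat.cast_one, Rat.cast_zero, Rat.cast_ofNat, potL_tau_cast]

theorem potL_side_cast {ι : Type} [Fintype ι] [DecidableEq ι] (q : ℕ) (x μ : ℚ) (k : ℕ)
    (A B : Matrix ι ι ℚ) :
    ((side q x μ k A B : ℚ) : ℝ) = side q (x : ℝ) (μ : ℝ) k (toR A) (toR B) := by
  have h1 : ∀ C : Matrix ι ι ℚ, ∑ c, (toR C c c) ^ 2 = ((∑ c, (C c c) ^ 2 : ℚ) : ℝ) := fun C => by
    simp [toR]
  rw [side, side, potL_sidePot_cast]
  simp only [sU, sT, sM3, sM4, sY, sV, sChi, ← spec_toR_mul, spec_toR_trace, h1]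

theorem pot_cast {ι : Type} [Fintype ι] [DecidableEq ι] (q : ℕ) (x μ : ℚ) (k : ℕ)
    (A B : Matrix ι ι ℚ) :
    ((pot q x μ k A B : ℚ) : ℝ) = pot q (x : ℝ) (μ : ℝ) k (toR A) (toR B) := by
  rw [pot, pot, Rat.cast_add, potL_side_cast, potL_side_cast]

end Vale.Agent.P049
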