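import Vale.Agent.P049.AMain
import Vale.Agent.P049.Block
import Vale.Agent.P049.BlockStep
import Vale.Agent.P049.BlockFin
import Vale.Agent.P049.Match
import Vale.Agent.P049.Integral
import Vale.Agent.P049.PotL

/-! P049: the main loop. -/

namespace Vale.Agent.P049

open Finset Matrix Vale.Agent.Lib.H23

/-- the three facts about the potential used by the loop -/
structure PotOK (q : ℕ) (x μ m : ℝ) : Prop where
  step : ∀ (ι : Type) [Fintype ι] [DecidableEq ι] (H : Finset ι) (Bp Bm : Matrix ι ι ℝ)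
      (bad : ι → ι → Prop) [DecidableRel bad],
      (∀ a b, bad a b → bad b a) → (∀ a, (H.filter (bad a)).card ≤ q) →
      kEnd q + 2 ≤ H.card → H.card ≤ q ^ 6001 →
      Inv H 1 m Bp → Inv H (-1) m Bm → pot q x μ H.card Bp Bm ≤ 1 →
      ∃ a ∈ H, ∃ b ∈ H, a ≠ b ∧ ¬ bad a b ∧ 0 < rho 1 Bp a b ∧ 0 < rho (-1) Bm a b ∧
        pot q x μ (H.card - 2) (step 1 Bp a b) (step (-1) Bm a b)
          ≤ pot q x μ H.card Bp Bm + incr ℝ q H.card
  sum : ∀ N j : ℕ, N ≤ q ^ 6001 → 2 * j ≤ N → ∑ i ∈ range j, incr ℝ q (N - 2 * i) ≤ 1 / 2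
  bound : ∀ (ι : Type) [Fintype ι] [DecidableEq ι] (H : Finset ι) (Bp Bm : Matrix ι ι ℝ),
      kEnd q ≤ H.card → H.card ≤ q ^ 6001 →
      Inv H 1 m Bp → Inv H (-1) m Bm → pot q x μ H.card Bp Bm ≤ 1 →
      sT Bp ≤ (q : ℝ) ^ 6003 ∧ sT Bm ≤ (q : ℝ) ^ 6003

/-- the invariant of one side after `j` steps -/
structure Side {n d : ℕ} (u m : ℝ) (c0 G j : ℕ) (s : ℚ) (H : Finset (HE n d))
    (π : HE n d → HE n d) (A : LM) : Prop where
  shape : Shape (n * d) A
  str : Str H (s : ℝ) (toR (toM n d A))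
  binv : BInv u s m H π (toR (toM n d A))
  int : ∃ D : ℤ, 0 < D ∧ D ≤ (G : ℤ) ^ j ∧ IInv c0 D H (toM n d A)

/-- the invariant after `j` steps -/
def Good (n d q : ℕ) (x μ : ℚ) (u m : ℝ) (c0 G j : ℕ) (t : Lo) : Prop :=
  ∃ (H : Finset (HE n d)) (π : HE n d → HE n d), RepP t.2.2.2 π ∧ Mt H π ∧ H.card = t.1 ∧
    t.1 + 2 * j = n * d ∧ Side u m c0 G j 1 H π t.2.1 ∧ Side u m c0 G j (-1) H π t.2.2.1 ∧
    pot q (x : ℝ) (μ : ℝ) t.1 (toR (toM n d t.2.1)) (toR (toM n d t.2.2.1)) ≤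
      1 / 4 + ∑ i ∈ range j, incr ℝ q (n * d - 2 * i)

theorem sq_le_sT {ι : Type} [Fintype ι] [DecidableEq ι] {B : Matrix ι ι ℝ} (h : B.IsSymm)
    (c e : ι) : B c e ^ 2 ≤ sT B := by
  have e1 : sT B = ∑ i, ∑ j, B i j ^ 2 := by
    simp only [sT, Matrix.trace, Matrix.diag, Matrix.mul_apply]
    refine Finset.sum_congr rfl fun i _ => Finset.sum_congr rfl fun j _ => ?_
    rw [h.apply i j]; ring
  rw [e1]
  calc B c e ^ 2 ≤ ∑ j, B c j ^ 2 :=
        Finset.single_le_sum (f := fun j => B c j ^ 2) (fun _ _ => sq_nonneg _) (mem_univ e)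
    _ ≤ _ := Finset.single_le_sum (f := fun i => ∑ j, B i j ^ 2)
        (fun _ _ => Finset.sum_nonneg fun _ _ => sq_nonneg _) (mem_univ c)

theorem toR_symm {ι : Type} {B : Matrix ι ι ℚ} (h : (toR B).IsSymm) : B.IsSymm := by
  ext i j
  have := h.apply j i
  simp only [toR, Matrix.map_apply] at this
  simpa using (Rat.cast_injective this).symm

theorem side_step {n d : ℕ} {u m T : ℝ} {c0 G j : ℕ} {s : ℚ} (hs : s = 1 ∨ s = -1)
    (hm0 : 0 ≤ m) (hm : m ^ 2 ≤ 1 / 2) {H : Finset (HE n d)} {π : HE n d → HE n d} {A : LM}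
    (hM : Mt H π) (h : Side u m c0 G j s H π A) (hT : sT (toR (toM n d A)) ≤ T)
    (hc : 0 < c0) (hG : (c0 : ℝ) ^ 2 * (2 + 3 * T) ≤ G) {a b : HE n d} (ha : a ∈ H) (hb : b ∈ H)
    (hab : a ≠ b) (hr : 0 < rho s (toM n d A) a b) :
    Side u m c0 G (j + 1) s ((H.erase a).erase b) (link π a b)
      (lstep (List.range (n * d)) s A (ix a) (ix b)) := by
  have hsR : (s : ℝ) = 1 ∨ (s : ℝ) = -1 := by rcases hs with rfl | rfl <;> simp
  have hs2 : (s : ℝ) ^ 2 = 1 := by rcases hsR with h | h <;> rw [h] <;> norm_num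
  have hrR : 0 < rho (s : ℝ) (toR (toM n d A)) a b := by
    rw [← rho_cast]; exact_mod_cast hr
  refine ⟨shape_tab _ _, ?_, ?_, ?_⟩
  · rw [toM_lstep, toR_step]
    exact str_step hs2 h.str ha hb hab hrR.ne'
  · rw [toM_lstep, toR_step]
    exact binv_step hsR hm0 hm hM h.str h.binv ha hb hab hrR
  · obtain ⟨D, hD0, hD1, hD⟩ := h.int
    obtain ⟨D', e, hD'⟩ := iinv_step hs (toR_symm h.str.symm) hD ha hb hab hr.ne'
    have eR : (D' : ℝ) = D * (c0 : ℝ) ^ 2 * rho (s : ℝ) (toR (toM n d A)) a b := by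
      rw [← rho_cast]; exact_mod_cast e
    have hD0R : (0 : ℝ) < D := by exact_mod_cast hD0
    have hcR : (0 : ℝ) < c0 := by exact_mod_cast hc
    have hrho : rho (s : ℝ) (toR (toM n d A)) a b ≤ 2 + 3 * T := by
      have h1 := sq_le_sT h.str.symm a b
      have h2 := sq_le_sT h.str.symm a a
      have h3 := sq_le_sT h.str.symm b b
      unfold rho
      nlinarith [sq_nonneg ((s : ℝ) + toR (toM n d A) a b),
        sq_nonneg (toR (toM n d A) a a + toR (toM n d A) b b)]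
    refine ⟨D', ?_, ?_, by rw [toM_lstep]; exact hD'⟩
    · have : (0 : ℝ) < D' := by rw [eR]; positivity
      exact_mod_cast this
    · have h1 : (D : ℝ) ≤ (G : ℝ) ^ j := by exact_mod_cast hD1
      have h2 : (c0 : ℝ) ^ 2 * rho (s : ℝ) (toR (toM n d A)) a b ≤ G :=
        le_trans (mul_le_mul_of_nonneg_left hrho (by positivity)) hG
      have : (D' : ℝ) ≤ (G : ℝ) ^ (j + 1) := by
        rw [eR, pow_succ, mul_assoc]
        exact mul_le_mul h1 h2 (mul_pos (by positivity) hrR).le (hD0R.le.trans h1)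
      exact_mod_cast this

theorem good_pot {n d q : ℕ} {x μ : ℚ} {m : ℝ} (hP : PotOK q x μ m) (hN : n * d ≤ q ^ 6001)
    {j k : ℕ} (hk : k + 2 * j = n * d) {p : ℝ}
    (h : p ≤ 1 / 4 + ∑ i ∈ range j, incr ℝ q (n * d - 2 * i)) : p ≤ 1 := by
  have := hP.sum (n * d) j hN (by omega)
  linarith

theorem good_step {n d q : ℕ} {x μ : ℚ} {u m : ℝ} {c0 G j : ℕ} (hP : PotOK q x μ m)
    (hm0 : 0 ≤ m) (hm : m ^ 2 ≤ 1 / 2) (hN : n * d ≤ q ^ 6001) (hq : d + d * d ≤ q) (hc : 0 < c0)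
    (hG : (c0 : ℝ) ^ 2 * (2 + 3 * (q : ℝ) ^ 6003) ≤ G) {t : Lo}
    (h : Good n d q x μ u m c0 G j t) (hk : kEnd q + 2 ≤ t.1) :
    ∃ t', mainStep d ((List.range (n * d), q, x, μ), t) = ((List.range (n * d), q, x, μ), t') ∧
      Good n d q x μ u m c0 G (j + 1) t' := by
  obtain ⟨k, A, B, l⟩ := t
  obtain ⟨H, π, hR, hM, hcard, hj, hA, hB, hp⟩ := h
  simp only at hR hcard hj hA hB hp hk
  have hp1 := good_pot hP hN hj hp
  have iA : Inv H 1 m (toR (toM n d A)) := by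
    have := inv_of_binv (Or.inl (by simp)) hm0 hm hA.str hA.binv
    simpa using this
  have iB : Inv H (-1) m (toR (toM n d B)) := by
    have := inv_of_binv (Or.inr (by simp)) hm0 hm hB.str hB.binv
    simpa using this
  have hle : H.card ≤ q ^ 6001 := by omega
  obtain ⟨hTA, hTB⟩ := hP.bound _ H _ _ (by omega) hle iA iB (by rw [hcard]; exact hp1)
  obtain ⟨a, ha, b, hb, hab, hbad, hr1, hr2, hpot⟩ := hP.step _ H _ _ (bad π) (bad_symm hM)
    (fun a => (bad_card H π a).trans hq) (by omega) hle iA iB (by rw [hcard]; exact hp1)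
  set g : Gl := (List.range (n * d), q, x, μ) with hg
  have hadm : ∀ a b : HE n d, admis d g (k, A, B, l) (ix a, ix b) = true ↔
      a ∈ H ∧ b ∈ H ∧ a ≠ b ∧ ¬ bad π a b ∧ 0 < rho 1 (toM n d A) a b ∧
        0 < rho (-1) (toM n d B) a b := by
    intro a b
    have e1 : ∀ c : HE n d, pg l (ix c) = ix c ↔ c ∈ H := fun c => by
      rw [hR.2, hM.alive]
      exact ⟨ix_inj, fun h => by rw [h]⟩
    have e2 : ix a = ix b ↔ a = b := ⟨ix_inj, fun h => by rw [h]⟩
    have e3 := lbad_iff hR a b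
    simp only [admis, hg, Bool.and_eq_true, eqb, decide_eq_true_eq, Bool.not_eq_true',
      e1, e2, lrho_eq, ← Bool.not_eq_true, e3, ne_eq]
  have hval : ∀ a b : HE n d, ((val g (apply g (k, A, B, l) (ix a, ix b)) : ℚ) : ℝ) =
      pot q (x : ℝ) (μ : ℝ) (k - 2) (step 1 (toR (toM n d A)) a b)
        (step (-1) (toR (toM n d B)) a b) := by
    intro a b
    simp only [val, apply, hg, lpot_eq, pot_cast, toM_lstep, toR_step]
    simp
  have hmem : ∀ c, c ∈ cands d g (k, A, B, l) ↔ ∃ a b : HE n d,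
      admis d g (k, A, B, l) (ix a, ix b) = true ∧
      c = (val g (apply g (k, A, B, l) (ix a, ix b)), apply g (k, A, B, l) (ix a, ix b)) := by
    intro c
    simp only [cands, List.mem_map, List.mem_filter]
    constructor
    · rintro ⟨p, ⟨h1, h2⟩, rfl⟩
      obtain ⟨h3, h4⟩ := (mem_pairs p).1 h1
      obtain ⟨a, ha⟩ := ix_surj h3
      obtain ⟨b, hb⟩ := ix_surj h4
      obtain rfl : p = (ix a, ix b) := Prod.ext ha.symm hb.symm
      exact ⟨a, b, h2, rfl⟩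
    · rintro ⟨a, b, h1, rfl⟩
      exact ⟨(ix a, ix b), ⟨(mem_pairs _).2 ⟨ix_lt a, ix_lt b⟩, h1⟩, rfl⟩
  have hr1' : 0 < rho 1 (toM n d A) a b := by
    have := rho_cast 1 (toM n d A) a b
    rw [Rat.cast_one] at this
    rw [← this] at hr1; exact_mod_cast hr1
  have hr2' : 0 < rho (-1) (toM n d B) a b := by
    have := rho_cast (-1) (toM n d B) a b
    rw [Rat.cast_neg, Rat.cast_one] at this
    rw [← this] at hr2; exact_mod_cast hr2
  have hin := (hmem _).2 ⟨a, b, (hadm a b).2 ⟨ha, hb, hab, hbad, hr1', hr2'⟩, rfl⟩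
  have hlt : ltb k (kEnd q + 2) = false := by simp [ltb]; omega
  cases hc' : cands d g (k, A, B, l) with
  | nil => rw [hc'] at hin; simp at hin
  | cons hd tl =>
    refine ⟨(best hd tl).2, by simp only [mainStep, hg, hlt, cond_false]; rw [← hg, hc']; rfl, ?_⟩
    obtain ⟨hb1, hb2⟩ := best_spec hd tl
    rw [← hc'] at hb1 hb2
    have hle2 := hb2 _ hin
    obtain ⟨a', b', hadm', e⟩ := (hmem _).1 hb1
    obtain ⟨ha', hb', hab', hbad', hra, hrb⟩ := (hadm a' b').1 hadm'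
    rw [e] at hle2 ⊢
    simp only at hle2
    have hle3 : ((val g (apply g (k, A, B, l) (ix a', ix b')) : ℚ) : ℝ) ≤
        ((val g (apply g (k, A, B, l) (ix a, ix b)) : ℚ) : ℝ) := by exact_mod_cast hle2
    rw [hval, hval] at hle3
    have hcard' : ((H.erase a').erase b').card = k - 2 := by
      rw [card_erase_of_mem (mem_erase.2 ⟨hab'.symm, hb'⟩), card_erase_of_mem ha']; omega
    refine ⟨(H.erase a').erase b', link π a' b', repP_link hR a' b', mt_link hM ha' hb' hbad',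
      hcard', by simp only [apply]; omega,
      side_step (Or.inl rfl) hm0 hm hM hA hTA hc hG ha' hb' hab' hra,
      side_step (Or.inr rfl) hm0 hm hM hB hTB hc hG ha' hb' hab' hrb, ?_⟩
    simp only [apply, hg, toM_lstep, toR_step, Rat.cast_one, Rat.cast_neg]
    rw [sum_range_succ, show n * d - 2 * j = k by omega]
    rw [hcard] at hpot
    linarith

theorem side_sz {n d : ℕ} {u m T : ℝ} {c0 G j b : ℕ} {s : ℚ} {H : Finset (HE n d)}
    {π : HE n d → HE n d} {A : LM} (h : Side u m c0 G j s H π A)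
    (hT : sT (toR (toM n d A)) ≤ T) (hc : 0 < c0) (h1 : c0 * G ^ j < 2 ^ b)
    (h2 : T + 1 < 2 ^ b) : sz A ≤ n * d * (n * d * (12 * b + 21) + 2) + 1 := by
  refine sz_LM_le h.shape fun i hi k hk => ?_
  obtain ⟨c, rfl⟩ := ix_surj hi
  obtain ⟨e, rfl⟩ := ix_surj hk
  obtain ⟨D, hD0, hD1, hD⟩ := h.int
  have hz : ∃ z : ℤ, (((c0 : ℤ) * D : ℤ) : ℚ) * toM n d A c e = z := by
    by_cases hc' : c ∈ H
    · by_cases he : e ∈ H
      · obtain ⟨z, hz⟩ := iinv_entry hD hc' he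
        exact ⟨z, by push_cast; exact hz⟩
      · have := h.str.supp e c he
        rw [h.str.symm.apply] at this
        have h0 : toM n d A c e = 0 := by simpa [toR] using this
        exact ⟨0, by simp [h0]⟩
    · have := h.str.supp c e hc'
      have h0 : toM n d A c e = 0 := by simpa [toR] using this
      exact ⟨0, by simp [h0]⟩
  refine sz_rat_le (x := toM n d A c e) (mul_pos (by exact_mod_cast hc) hD0) hz ?_ ?_
  · have h3 : ((c0 * G ^ j : ℕ) : ℤ) < ((2 ^ b : ℕ) : ℤ) := by exact_mod_cast h1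
    push_cast at h3
    exact lt_of_le_of_lt (mul_le_mul_of_nonneg_left hD1 (by positivity)) h3
  · have h3 := sq_le_sT h.str.symm c e
    have h4 : |toR (toM n d A) c e| < 2 ^ b := by
      have := abs_nonneg (toR (toM n d A) c e)
      nlinarith [sq_abs (toR (toM n d A) c e), sq_nonneg (|toR (toM n d A) c e| - 1)]
    have h5 : ((|toM n d A c e| : ℚ) : ℝ) < ((2 ^ b : ℚ) : ℝ) := by
      push_cast; simpa [toR] using h4
    exact_mod_cast h5

theorem good_sz {n d q : ℕ} {x μ : ℚ} {u m : ℝ} {c0 G j b : ℕ} (hP : PotOK q x μ m)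
    (hm0 : 0 ≤ m) (hm : m ^ 2 ≤ 1 / 2) (hN : n * d ≤ q ^ 6001) (hc : 0 < c0) {t : Lo}
    (h : Good n d q x μ u m c0 G j t) (hk : kEnd q ≤ t.1) (h1 : c0 * G ^ j < 2 ^ b)
    (h2 : (q : ℝ) ^ 6003 + 1 < 2 ^ b) :
    sz t ≤ 2 * (n * d * (n * d * (12 * b + 21) + 2) + 1) + 10 * (n * d + 1) ^ 2 := by
  obtain ⟨k, A, B, l⟩ := t
  obtain ⟨H, π, hR, hM, hcard, hj, hA, hB, hp⟩ := h
  simp only at hR hcard hj hA hB hp hk
  have hp1 := good_pot hP hN hj hp
  have iA : Inv H 1 m (toR (toM n d A)) := by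
    have := inv_of_binv (Or.inl (by simp)) hm0 hm hA.str hA.binv
    simpa using this
  have iB : Inv H (-1) m (toR (toM n d B)) := by
    have := inv_of_binv (Or.inr (by simp)) hm0 hm hB.str hB.binv
    simpa using this
  obtain ⟨hTA, hTB⟩ := hP.bound _ H _ _ (by omega) (by omega) iA iB (by rw [hcard]; exact hp1)
  have e1 := side_sz hA hTA hc h1 h2
  have e2 := side_sz hB hTB hc h1 h2
  have e3 : sz l ≤ 5 * (n * d + 1) ^ 2 :=
    sz_listNat_le hR.1.le fun i hi => (repP_mem hR i hi).le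
  have e4 : sz k ≤ 4 * (n * d) + 1 :=
    sz_nat_le (lt_of_le_of_lt (by omega) (Nat.lt_two_pow_self (n := n * d)))
  simp only [sz_pair]
  nlinarith

theorem good_iter {n d q : ℕ} {x μ : ℚ} {u m : ℝ} {c0 G : ℕ} (hP : PotOK q x μ m)
    (hm0 : 0 ≤ m) (hm : m ^ 2 ≤ 1 / 2) (hN : n * d ≤ q ^ 6001) (hq : d + d * d ≤ q) (hc : 0 < c0)
    (hG : (c0 : ℝ) ^ 2 * (2 + 3 * (q : ℝ) ^ 6003) ≤ G) {t : Lo}
    (h : Good n d q x μ u m c0 G 0 t) (j : ℕ) (hj : kEnd q + 2 * j ≤ n * d) :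
    ∃ t', (mainStep d)^[j] ((List.range (n * d), q, x, μ), t) =
      ((List.range (n * d), q, x, μ), t') ∧ Good n d q x μ u m c0 G j t' := by
  induction j with
  | zero => exact ⟨t, rfl, h⟩
  | succ j ih =>
    obtain ⟨t', e, h'⟩ := ih (by omega)
    have hk : kEnd q + 2 ≤ t'.1 := by
      obtain ⟨_, _, _, _, _, h1, _⟩ := h'
      omega
    obtain ⟨t'', e', h''⟩ := good_step hP hm0 hm hN hq hc hG h' hk
    exact ⟨t'', by rw [Function.iterate_succ_apply', e, e'], h''⟩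

end Vale.Agent.P049
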